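import Mathlib

/-!
P151, route R3, block O: the relative Ozawa inequality for finite probability vectors.
-/

open Finset

namespace Vale.Agent.P151.R3.O

/-- `s log s - s + 1 ≥ 0`. -/
theorem slog_nonneg {s : ℝ} (hs : 0 ≤ s) : 0 ≤ s * Real.log s - s + 1 := by
  rcases hs.eq_or_lt with h | h
  · rw [← h]; norm_num
  · have h1 := Real.log_le_sub_one_of_pos (inv_pos.2 h)
    rw [Real.log_inv] at h1
    have h2 : s * (-Real.log s) ≤ s * (s⁻¹ - 1) := mul_le_mul_of_nonneg_left h1 h.le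
    rw [mul_sub, mul_inv_cancel₀ h.ne'] at h2
    linarith

/-- the Kullback-Leibler summand dominates the Hellinger summand -/
theorem hell_le {p q : ℝ} (hp : 0 ≤ p) (hq : 0 ≤ q) (hpq : q = 0 → p = 0) :
    (Real.sqrt p - Real.sqrt q) ^ 2 ≤ p * Real.log (p / q) - p + q := by
  rcases hq.eq_or_lt with h | h
  · have := hpq h.symm
    rw [← h, this]
    simp
  · rcases hp.eq_or_lt with h' | h'
    · rw [← h']
      simp only [Real.sqrt_zero, zero_sub, neg_sq, Real.sq_sqrt hq, zero_mul, zero_add, sub_zero,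
        zero_sub, le_refl]
    · set a := Real.sqrt p with ha
      set b := Real.sqrt q with hb
      have ha0 : 0 < a := Real.sqrt_pos.2 h'
      have hb0 : 0 < b := Real.sqrt_pos.2 h
      have hpa : p = a ^ 2 := (Real.sq_sqrt hp).symm
      have hqb : q = b ^ 2 := (Real.sq_sqrt hq).symm
      have h1 := slog_nonneg (s := a / b) (by positivity)
      have h2 : Real.log (p / q) = 2 * Real.log (a / b) := by
        rw [hpa, hqb, ← div_pow, Real.log_pow]
        norm_num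
      rw [h2, hpa, hqb]
      have h3 : 0 ≤ (2 * a * b) * (a / b * Real.log (a / b) - a / b + 1) := by positivity
      have h4 : (2 * a * b) * (a / b * Real.log (a / b) - a / b + 1) =
          a ^ 2 * (2 * Real.log (a / b)) - 2 * a ^ 2 + 2 * (a * b) := by
        field_simp
      nlinarith

variable {ι : Type*}

/-- Kullback-Leibler divergence of two finite vectors -/
noncomputable def kl (s : Finset ι) (p q : ι → ℝ) : ℝ := ∑ i ∈ s, p i * Real.log (p i / q i)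

theorem hell_sum_le (s : Finset ι) (p q : ι → ℝ) (hp : ∀ i ∈ s, 0 ≤ p i) (hq : ∀ i ∈ s, 0 ≤ q i)
    (hpq : ∀ i ∈ s, q i = 0 → p i = 0) (h1 : ∑ i ∈ s, p i = 1) (h2 : ∑ i ∈ s, q i = 1) :
    ∑ i ∈ s, (Real.sqrt (p i) - Real.sqrt (q i)) ^ 2 ≤ kl s p q := by
  have h : ∑ i ∈ s, (Real.sqrt (p i) - Real.sqrt (q i)) ^ 2 ≤
      ∑ i ∈ s, (p i * Real.log (p i / q i) - p i + q i) :=
    Finset.sum_le_sum fun i hi => hell_le (hp i hi) (hq i hi) (hpq i hi)
  rw [Finset.sum_add_distrib, Finset.sum_sub_distrib, h1, h2] at h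
  unfold kl
  linarith

theorem kl_nonneg (s : Finset ι) (p q : ι → ℝ) (hp : ∀ i ∈ s, 0 ≤ p i) (hq : ∀ i ∈ s, 0 ≤ q i)
    (hpq : ∀ i ∈ s, q i = 0 → p i = 0) (h1 : ∑ i ∈ s, p i = 1) (h2 : ∑ i ∈ s, q i = 1) :
    0 ≤ kl s p q :=
  (Finset.sum_nonneg fun _ _ => sq_nonneg _).trans (hell_sum_le s p q hp hq hpq h1 h2)

/-- **The relative Ozawa inequality.** -/
theorem ozawa (s : Finset ι) (p q F : ι → ℝ) (hp : ∀ i ∈ s, 0 ≤ p i) (hq : ∀ i ∈ s, 0 ≤ q i)
    (hpq : ∀ i ∈ s, q i = 0 → p i = 0) (h1 : ∑ i ∈ s, p i = 1) (h2 : ∑ i ∈ s, q i = 1) :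
    (∑ i ∈ s, p i * F i - ∑ i ∈ s, q i * F i) ^ 2 ≤
      2 * kl s p q * (∑ i ∈ s, p i * F i ^ 2 + ∑ i ∈ s, q i * F i ^ 2) := by
  have e1 : ∑ i ∈ s, p i * F i - ∑ i ∈ s, q i * F i =
      ∑ i ∈ s, (Real.sqrt (p i) - Real.sqrt (q i)) * ((Real.sqrt (p i) + Real.sqrt (q i)) * F i) := by
    rw [← Finset.sum_sub_distrib]
    refine Finset.sum_congr rfl fun i hi => ?_
    have ha := Real.sq_sqrt (hp i hi)
    have hb := Real.sq_sqrt (hq i hi)
    have hc : p i * F i - q i * F i = (Real.sqrt (p i) ^ 2 - Real.sqrt (q i) ^ 2) * F i := by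
      rw [ha, hb]
      ring
    rw [hc]
    ring
  rw [e1]
  refine (Finset.sum_mul_sq_le_sq_mul_sq s _ _).trans ?_
  have e2 : ∑ i ∈ s, ((Real.sqrt (p i) + Real.sqrt (q i)) * F i) ^ 2 ≤
      2 * (∑ i ∈ s, p i * F i ^ 2 + ∑ i ∈ s, q i * F i ^ 2) := by
    rw [← Finset.sum_add_distrib, Finset.mul_sum]
    refine Finset.sum_le_sum fun i hi => ?_
    have ha := Real.sq_sqrt (hp i hi)
    have hb := Real.sq_sqrt (hq i hi)
    have h3 : (Real.sqrt (p i) + Real.sqrt (q i)) ^ 2 ≤ 2 * (p i + q i) := by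
      nlinarith [sq_nonneg (Real.sqrt (p i) - Real.sqrt (q i))]
    calc ((Real.sqrt (p i) + Real.sqrt (q i)) * F i) ^ 2
        = (Real.sqrt (p i) + Real.sqrt (q i)) ^ 2 * F i ^ 2 := by ring
      _ ≤ 2 * (p i + q i) * F i ^ 2 := mul_le_mul_of_nonneg_right h3 (sq_nonneg _)
      _ = 2 * (p i * F i ^ 2 + q i * F i ^ 2) := by ring
  have h4 := hell_sum_le s p q hp hq hpq h1 h2
  have h5 : 0 ≤ ∑ i ∈ s, ((Real.sqrt (p i) + Real.sqrt (q i)) * F i) ^ 2 :=
    Finset.sum_nonneg fun _ _ => sq_nonneg _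
  have h6 : 0 ≤ kl s p q := kl_nonneg s p q hp hq hpq h1 h2
  calc (∑ i ∈ s, (Real.sqrt (p i) - Real.sqrt (q i)) ^ 2) *
        ∑ i ∈ s, ((Real.sqrt (p i) + Real.sqrt (q i)) * F i) ^ 2
      ≤ kl s p q * ∑ i ∈ s, ((Real.sqrt (p i) + Real.sqrt (q i)) * F i) ^ 2 :=
        mul_le_mul_of_nonneg_right h4 h5
    _ ≤ kl s p q * (2 * (∑ i ∈ s, p i * F i ^ 2 + ∑ i ∈ s, q i * F i ^ 2)) :=
        mul_le_mul_of_nonneg_left e2 h6
    _ = _ := by ring

/-- entropy of a finite vector -/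
noncomputable def ent (s : Finset ι) (p : ι → ℝ) : ℝ := -∑ i ∈ s, p i * Real.log (p i)

/-- **Entropy increment = mean divergence.** -/
theorem ent_sub {κ : Type*} (s : Finset ι) (t : Finset κ) (w : κ → ℝ) (p : κ → ι → ℝ)
    (hp : ∀ y ∈ t, ∀ i ∈ s, 0 ≤ p y i) (hw : ∀ y ∈ t, 0 < w y) :
    ∑ y ∈ t, w y * kl s (p y) (fun i => ∑ z ∈ t, w z * p z i) =
      ent s (fun i => ∑ z ∈ t, w z * p z i) - ∑ y ∈ t, w y * ent s (p y) := by
  unfold kl ent
  have h1 : ∀ y ∈ t, ∀ i ∈ s, p y i * Real.log (p y i / ∑ z ∈ t, w z * p z i) =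
      p y i * Real.log (p y i) - p y i * Real.log (∑ z ∈ t, w z * p z i) := by
    intro y hy i hi
    rcases (hp y hy i hi).eq_or_lt with h | h
    · rw [← h]; ring
    · have hq : 0 < ∑ z ∈ t, w z * p z i := by
        refine Finset.sum_pos' (fun z hz => mul_nonneg (hw z hz).le (hp z hz i hi)) ⟨y, hy, ?_⟩
        exact mul_pos (hw y hy) h
      rw [Real.log_div h.ne' hq.ne']
      ring
  have h2 : ∀ y ∈ t, w y * ∑ i ∈ s, p y i * Real.log (p y i / ∑ z ∈ t, w z * p z i) =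
      w y * ∑ i ∈ s, p y i * Real.log (p y i) -
        ∑ i ∈ s, (w y * p y i) * Real.log (∑ z ∈ t, w z * p z i) := by
    intro y hy
    rw [Finset.sum_congr rfl (h1 y hy), Finset.sum_sub_distrib, mul_sub, Finset.mul_sum (s := s)
      (f := fun i => p y i * Real.log (∑ z ∈ t, w z * p z i))]
    congr 1
    exact Finset.sum_congr rfl fun i _ => by ring
  rw [Finset.sum_congr rfl h2, Finset.sum_sub_distrib, Finset.sum_comm]
  simp only [← Finset.sum_mul, mul_neg, Finset.sum_neg_distrib]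
  ring

/-- **Pigeonhole for the entropy increments**: `H (k₁²) - H 1 ≤ 2 log k₁² + c` forces
`k (H (k+1) - H k) ≤ 6` for some `k` in `[k₁, k₁²)`. -/
theorem exists_small_increment (H : ℕ → ℝ) (c : ℝ) (k1 : ℕ) (hk1 : 2 ≤ k1)
    (hmono : ∀ k, 1 ≤ k → H k ≤ H (k + 1))
    (hup : H (k1 ^ 2) ≤ H 1 + 2 * Real.log ((k1 ^ 2 : ℕ) : ℝ) + c)
    (hbig : c + 6 ≤ 2 * Real.log k1) :
    ∃ k, k1 ≤ k ∧ k < k1 ^ 2 ∧ (k : ℝ) * (H (k + 1) - H k) ≤ 6 := by
  by_contra hcon
  push Not at hcon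
  have hk0 : (0 : ℝ) < k1 := by exact_mod_cast (by omega : 0 < k1)
  have hmono1 : ∀ m, 1 ≤ m → H 1 ≤ H m := by
    intro m hm
    induction m, hm using Nat.le_induction with
    | base => exact le_rfl
    | succ m hm ih => exact ih.trans (hmono m hm)
  -- telescoping lower bound
  have hlow : ∀ m, k1 ≤ m → m ≤ k1 ^ 2 → H k1 + 6 * (Real.log m - Real.log k1) - 0 ≤ H m := by
    intro m hm
    induction m, hm using Nat.le_induction with
    | base => intro _; simp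
    | succ m hm ih =>
      intro hm2
      have h1 := ih (by omega)
      have h2 := hcon m hm (by omega)
      have hm0 : (0 : ℝ) < m := by exact_mod_cast (by omega : 0 < m)
      have h3 : Real.log ((m + 1 : ℕ) : ℝ) - Real.log m ≤ 1 / m := by
        rw [← Real.log_div (by positivity) hm0.ne']
        have h4 : ((m + 1 : ℕ) : ℝ) / m = 1 + 1 / m := by
          push_cast
          field_simp
        rw [h4]
        have := Real.log_le_sub_one_of_pos (x := 1 + 1 / (m : ℝ)) (by positivity)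
        linarith
      have h5 : 6 * (1 / (m : ℝ)) < H (m + 1) - H m := by
        rw [mul_one_div, div_lt_iff₀ hm0]
        linarith
      linarith
  have h1 := hlow (k1 ^ 2) (by nlinarith) le_rfl
  have h2 := hmono1 k1 (by omega)
  have h3 : Real.log ((k1 ^ 2 : ℕ) : ℝ) = 2 * Real.log k1 := by
    push_cast
    rw [Real.log_pow]
    norm_num
  rw [h3] at h1 hup
  linarith

end Vale.Agent.P151.R3.O
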