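import Vale.Agent.P151.H982.VWalk
import Vale.Agent.P151.R3.H430.Oz1

/-!
P151, route R3, block O: entropy of the random walk on the vertices of a transitive graph.
-/

universe u v w

open Finset

namespace Vale.Agent.P151.R3.O

open Vale.Agent.P151.H982

variable {V : Type v} {nb : V → Finset V} {o : V}

open Classical in
/-- transition probabilities -/
noncomputable def pk (nb : V → Finset V) (n : ℕ) (x y : V) : ℝ :=
  Wk nb n (fun z => if z = y then 1 else 0) x

open Classical in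
/-- vertices reachable in exactly `n` steps (at most `n`, as there are loops) -/
noncomputable def rb (nb : V → Finset V) : ℕ → V → Finset V
  | 0, x => {x}
  | n + 1, x => (nb x).biUnion (rb nb n)

theorem pk_nonneg (n : ℕ) (x y : V) : 0 ≤ pk nb n x y := by
  classical
  exact Wk_nonneg n (fun z => by split_ifs <;> norm_num) x

theorem pk_zero (x y : V) [Decidable (x = y)] : pk nb 0 x y = if x = y then 1 else 0 := by
  unfold pk
  rw [Wk_zero]
  congr

theorem pk_succ (n : ℕ) (x y : V) :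
    pk nb (n + 1) x y = ((nb x).card : ℝ)⁻¹ * ∑ z ∈ nb x, pk nb n z y := by
  unfold pk
  rw [Wk_succ']
  rfl

theorem rb_zero (x : V) : rb nb 0 x = {x} := rfl

theorem mem_rb_succ {n : ℕ} {x y : V} : y ∈ rb nb (n + 1) x ↔ ∃ z ∈ nb x, y ∈ rb nb n z := by
  classical
  rw [rb, Finset.mem_biUnion]

theorem rb_sub (n : ℕ) {x z : V} (hz : z ∈ nb x) : rb nb n z ⊆ rb nb (n + 1) x := fun _ hy =>
  mem_rb_succ.2 ⟨z, hz, hy⟩

theorem Wk_eq_sum (n : ℕ) (f : V → ℝ) (x : V) (B : Finset V) (hB : rb nb n x ⊆ B) :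
    Wk nb n f x = ∑ y ∈ B, pk nb n x y * f y := by
  classical
  induction n generalizing x with
  | zero =>
    have hx : x ∈ B := hB (by rw [rb_zero]; exact Finset.mem_singleton_self x)
    rw [Wk_zero, Finset.sum_eq_single x]
    · rw [pk_zero, if_pos rfl, one_mul]
    · intro y _ hy
      rw [pk_zero, if_neg (Ne.symm hy), zero_mul]
    · intro h; exact absurd hx h
  | succ n ih =>
    rw [Wk_succ']
    unfold av
    rw [Finset.sum_congr rfl (fun z hz => ih z ((rb_sub n hz).trans hB)), Finset.sum_comm,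
      Finset.mul_sum]
    refine Finset.sum_congr rfl fun y _ => ?_
    rw [pk_succ, ← Finset.sum_mul]
    ring

theorem pk_eq_zero {n : ℕ} {x y : V} (hy : y ∉ rb nb n x) : pk nb n x y = 0 := by
  classical
  have h := Wk_eq_sum (nb := nb) n (fun z => if z = y then 1 else 0) x (rb nb n x)
    (Finset.Subset.refl _)
  unfold pk
  rw [h]
  refine Finset.sum_eq_zero fun z hz => ?_
  have : z ≠ y := fun e => hy (e ▸ hz)
  rw [if_neg this, mul_zero]

theorem sum_pk (hS : ∀ x, x ∈ nb x) (n : ℕ) (x : V) (B : Finset V) (hB : rb nb n x ⊆ B) :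
    ∑ y ∈ B, pk nb n x y = 1 := by
  have h := Wk_eq_sum (nb := nb) n (fun _ => (1 : ℝ)) x B hB
  rw [Wk_const hS] at h
  simpa using h.symm

/-- entropy of the walk started at `x` after `n` steps -/
noncomputable def Hn (nb : V → Finset V) (n : ℕ) (x : V) : ℝ := ent (rb nb n x) (pk nb n x)

theorem ent_eq (n : ℕ) (x : V) (B : Finset V) (hB : rb nb n x ⊆ B) :
    ent B (pk nb n x) = Hn nb n x := by
  unfold Hn ent
  congr 1
  symm
  refine Finset.sum_subset hB fun y _ hy => ?_
  rw [pk_eq_zero hy, zero_mul]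

theorem ent_le_log {ι : Type*} (s : Finset ι) (p : ι → ℝ) (hp : ∀ i ∈ s, 0 ≤ p i)
    (h1 : ∑ i ∈ s, p i = 1) : ent s p ≤ Real.log s.card := by
  have hs : 0 < s.card := by
    rw [Finset.card_pos]
    by_contra h
    rw [Finset.not_nonempty_iff_eq_empty] at h
    rw [h, Finset.sum_empty] at h1
    exact zero_ne_one h1
  have hs' : (0 : ℝ) < s.card := by exact_mod_cast hs
  have h := kl_nonneg s p (fun _ => ((s.card : ℝ))⁻¹) hp (fun _ _ => by positivity)
    (fun i hi h => absurd h (by positivity)) h1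
    (by rw [Finset.sum_const, nsmul_eq_mul, mul_inv_cancel₀ hs'.ne'])
  have h2 : kl s p (fun _ => ((s.card : ℝ))⁻¹) = -ent s p + Real.log s.card := by
    unfold kl ent
    rw [neg_neg]
    have : ∀ i ∈ s, p i * Real.log (p i / ((s.card : ℝ))⁻¹) =
        p i * Real.log (p i) + p i * Real.log s.card := by
      intro i hi
      rcases (hp i hi).eq_or_lt with h | h
      · rw [← h]; ring
      · rw [Real.log_div h.ne' (by positivity), Real.log_inv]
        ring
    rw [Finset.sum_congr rfl this, Finset.sum_add_distrib, ← Finset.sum_mul, h1, one_mul]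
  rw [h2] at h
  linarith

theorem Hn_le (hS : ∀ x, x ∈ nb x) (n : ℕ) (x : V) : Hn nb n x ≤ Real.log (rb nb n x).card :=
  ent_le_log _ _ (fun y _ => pk_nonneg n x y) (sum_pk hS n x _ (Finset.Subset.refl _))

section Act

variable {Γ : Type u} [Group Γ] [MulAction Γ V]

theorem pk_smul (hV : VG Γ nb o) (g : Γ) (n : ℕ) (x y : V) :
    pk nb n (g • x) (g • y) = pk nb n x y := by
  classical
  unfold pk
  rw [← Wk_act hV]
  congr 1
  funext z
  by_cases h : z = y
  · rw [if_pos h, if_pos (by rw [h])]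
  · rw [if_neg h, if_neg (fun e => h (MulAction.injective g e))]

theorem mem_rb_smul (hV : VG Γ nb o) (g : Γ) (n : ℕ) (x y : V) :
    g • y ∈ rb nb n (g • x) ↔ y ∈ rb nb n x := by
  induction n generalizing x with
  | zero =>
    rw [rb_zero, rb_zero, Finset.mem_singleton, Finset.mem_singleton]
    exact (MulAction.injective g).eq_iff
  | succ n ih =>
    rw [mem_rb_succ, mem_rb_succ]
    constructor
    · rintro ⟨z, hz, h⟩
      refine ⟨g⁻¹ • z, ?_, ?_⟩
      · rw [← nb_smul hV g, smul_inv_smul]; exact hz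
      · rw [← ih, smul_inv_smul]; exact h
    · rintro ⟨z, hz, h⟩
      exact ⟨g • z, (nb_smul hV g x z).2 hz, (ih z).2 h⟩

theorem sum_rb_smul (hV : VG Γ nb o) (g : Γ) (n : ℕ) (x : V) (f : V → ℝ) :
    ∑ y ∈ rb nb n (g • x), f y = ∑ y ∈ rb nb n x, f (g • y) := by
  refine Finset.sum_nbij' (fun y => g⁻¹ • y) (fun y => g • y) (fun y hy => ?_) (fun y hy => ?_)
    (fun y _ => smul_inv_smul g y) (fun y _ => inv_smul_smul g y) (fun y _ => ?_)
  · rw [← mem_rb_smul hV g, smul_inv_smul]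
    exact hy
  · exact (mem_rb_smul hV g n x y).2 hy
  · rw [smul_inv_smul]

theorem Hn_smul (hV : VG Γ nb o) (g : Γ) (n : ℕ) (x : V) : Hn nb n (g • x) = Hn nb n x := by
  unfold Hn ent
  rw [sum_rb_smul hV g]
  simp only [pk_smul hV g]

theorem Hn_eq (hV : VG Γ nb o) (n : ℕ) (x : V) : Hn nb n x = Hn nb n o := by
  obtain ⟨g, rfl⟩ := hV.trans x
  exact Hn_smul hV g n o

/-- divergence of the walk started at the neighbour `y` of `x` from the walk started at `x` -/
noncomputable def Dk (nb : V → Finset V) (n : ℕ) (x y : V) : ℝ :=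
  kl (rb nb (n + 1) x) (pk nb n y) (pk nb (n + 1) x)

theorem Dk_smul (hV : VG Γ nb o) (g : Γ) (n : ℕ) (x y : V) :
    Dk nb n (g • x) (g • y) = Dk nb n x y := by
  unfold Dk kl
  rw [sum_rb_smul hV g]
  simp only [pk_smul hV g]

theorem pk_abs_cont {n : ℕ} {x y z : V} (hy : y ∈ nb x) (h : pk nb (n + 1) x z = 0) :
    pk nb n y z = 0 := by
  rw [pk_succ, mul_eq_zero] at h
  rcases h with h | h
  · exfalso
    rw [inv_eq_zero, Nat.cast_eq_zero, Finset.card_eq_zero] at h
    rw [h] at hy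
    exact absurd hy (Finset.notMem_empty y)
  · exact (Finset.sum_eq_zero_iff_of_nonneg (fun z' _ => pk_nonneg n z' z)).1 h y hy

theorem Dk_nonneg (hS : ∀ x, x ∈ nb x) (n : ℕ) {x y : V} (hy : y ∈ nb x) : 0 ≤ Dk nb n x y :=
  kl_nonneg _ _ _ (fun z _ => pk_nonneg n y z) (fun z _ => pk_nonneg (n + 1) x z)
    (fun _ _ h => pk_abs_cont hy h) (sum_pk hS n y _ (rb_sub n hy))
    (sum_pk hS (n + 1) x _ (Finset.Subset.refl _))

/-- **entropy increments** -/
theorem av_Dk (hV : VG Γ nb o) (n : ℕ) (x : V) :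
    av nb (fun y => Dk nb n x y) x = Hn nb (n + 1) x - Hn nb n x := by
  have hc := card_pos hV x
  have h := ent_sub (rb nb (n + 1) x) (nb x) (fun _ => ((nb x).card : ℝ)⁻¹) (fun y => pk nb n y)
    (fun y _ z _ => pk_nonneg n y z) (fun _ _ => by positivity)
  have e1 : (fun i => ∑ z ∈ nb x, ((nb x).card : ℝ)⁻¹ * pk nb n z i) = pk nb (n + 1) x := by
    funext i
    rw [pk_succ, Finset.mul_sum]
  rw [e1] at h
  have e2 : ∑ y ∈ nb x, ((nb x).card : ℝ)⁻¹ * ent (rb nb (n + 1) x) (pk nb n y) = Hn nb n x := by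
    rw [Finset.sum_congr rfl (fun y hy => by
      rw [ent_eq n y _ (rb_sub n hy), Hn_eq hV n y, ← Hn_eq hV n x])]
    rw [Finset.sum_const, nsmul_eq_mul, ← mul_assoc, mul_inv_cancel₀ hc.ne', one_mul]
  rw [e2] at h
  unfold av
  rw [Finset.mul_sum]
  exact h

theorem Hn_mono (hV : VG Γ nb o) (n : ℕ) (x : V) : Hn nb n x ≤ Hn nb (n + 1) x := by
  have h := av_Dk hV n x
  have h2 : 0 ≤ av nb (fun y => Dk nb n x y) x := by
    unfold av
    refine mul_nonneg (by positivity) (Finset.sum_nonneg fun y hy => Dk_nonneg hV.self n hy)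
  linarith

theorem Hn_one (hV : VG Γ nb o) : Hn nb 1 o = Real.log (nb o).card := by
  classical
  have hc := card_pos hV o
  have hrb : rb nb 1 o = nb o := by
    ext y
    rw [mem_rb_succ]
    constructor
    · rintro ⟨z, hz, h⟩
      rw [rb_zero, Finset.mem_singleton] at h
      rw [h]; exact hz
    · intro h
      exact ⟨y, h, by rw [rb_zero]; exact Finset.mem_singleton_self y⟩
  have hpk : ∀ y ∈ nb o, pk nb 1 o y = ((nb o).card : ℝ)⁻¹ := by
    intro y hy
    rw [pk_succ, Finset.sum_eq_single y]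
    · rw [pk_zero, if_pos rfl, mul_one]
    · intro z _ hz
      rw [pk_zero, if_neg hz]
    · intro h; exact absurd hy h
  unfold Hn ent
  rw [hrb, Finset.sum_congr rfl (fun y hy => by rw [hpk y hy]), Finset.sum_const, nsmul_eq_mul,
    Real.log_inv]
  field_simp

/-- **good times**: if `|P^(k₁²)| ≤ C k₁⁴ |P|` then some `k` in `[k₁, k₁²)` has entropy increment
at most `6 / k`. -/
theorem exists_good_time (hV : VG Γ nb o) (C : ℝ) (hC : 0 < C) (k1 : ℕ) (hk1 : 2 ≤ k1)
    (hvol : ((rb nb (k1 ^ 2) o).card : ℝ) ≤ C * ((k1 ^ 2 : ℕ) : ℝ) ^ 2 * (nb o).card)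
    (hbig : Real.log C + 6 ≤ 2 * Real.log k1) :
    ∃ k, k1 ≤ k ∧ k < k1 ^ 2 ∧ (k : ℝ) * (Hn nb (k + 1) o - Hn nb k o) ≤ 6 := by
  refine exists_small_increment (fun k => Hn nb k o) (Real.log C) k1 hk1
    (fun k _ => Hn_mono hV k o) ?_ hbig
  have hc := card_pos hV o
  have h1 := Hn_le (nb := nb) hV.self (k1 ^ 2) o
  have hk : (0 : ℝ) < ((k1 ^ 2 : ℕ) : ℝ) := by
    have : 0 < k1 ^ 2 := by positivity
    exact_mod_cast this
  have hpos : (0 : ℝ) < (rb nb (k1 ^ 2) o).card := by
    have h2 := sum_pk (nb := nb) hV.self (k1 ^ 2) o _ (Finset.Subset.refl _)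
    rw [Nat.cast_pos, Finset.card_pos]
    by_contra h
    rw [Finset.not_nonempty_iff_eq_empty] at h
    rw [h, Finset.sum_empty] at h2
    exact zero_ne_one h2
  have h3 := Real.log_le_log hpos hvol
  rw [Real.log_mul (by positivity) hc.ne', Real.log_mul hC.ne' (by positivity), Real.log_pow] at h3
  show Hn nb (k1 ^ 2) o ≤ Hn nb 1 o + _ + _
  rw [Hn_one hV]
  push_cast at h3 ⊢
  linarith

end Act

end Vale.Agent.P151.R3.O
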