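import Vale.Agent.P151.R3.H430.Oz4

/-!
P151, route R3, block O: second moments, the Ozawa inequality for the near elements, selection.
-/

universe u v w

open Finset
open scoped TensorProduct RealInnerProductSpace

namespace Vale.Agent.P151.R3.O

open Vale.Agent.P151.H982

variable {V : Type v} {nb : V → Finset V} {o : V}
variable {E : Type w} [NormedAddCommGroup E] [InnerProductSpace ℝ E]

theorem rb_mono (hS : ∀ x, x ∈ nb x) {i j : ℕ} (hij : i ≤ j) (x : V) : rb nb i x ⊆ rb nb j x := by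
  induction hij with
  | refl => exact Finset.Subset.refl _
  | step _ ih => exact ih.trans (rb_sub _ (hS x))

theorem Wk_le_of_rb {n : ℕ} {f g : V → ℝ} {x : V} (h : ∀ y ∈ rb nb n x, f y ≤ g y) :
    Wk nb n f x ≤ Wk nb n g x := by
  rw [Wk_eq_sum n f x _ (Finset.Subset.refl _), Wk_eq_sum n g x _ (Finset.Subset.refl _)]
  exact Finset.sum_le_sum fun y hy => mul_le_mul_of_nonneg_left (h y hy) (pk_nonneg n x y)

/-- scalar drift -/
noncomputable def dr (nb : V → Finset V) (F : V → E) (v : E) (p : V) : ℝ :=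
  av nb (fun z => ⟪F z - F p, v⟫) p

theorem av_f (hS : ∀ x, x ∈ nb x) (F : V → E) (x : V) (v : E) (p : V) :
    av nb (fun y => ⟪F y - F x, v⟫) p = ⟪F p - F x, v⟫ + dr nb F v p := by
  have h1 : (fun y => ⟪F y - F x, v⟫) = fun y => ⟪F p - F x, v⟫ + ⟪F y - F p, v⟫ := by
    funext y
    rw [← inner_add_left]
    congr 1
    abel
  rw [h1, congrFun (av_add (fun _ => ⟪F p - F x, v⟫) _) p, congrFun (av_const hS _) p]
  rfl

theorem av_f2 (hS : ∀ x, x ∈ nb x) (F : V → E) (x : V) (v : E) (p : V) :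
    av nb (fun y => ⟪F y - F x, v⟫ ^ 2) p =
      ⟪F p - F x, v⟫ ^ 2 + 2 * ⟪F p - F x, v⟫ * dr nb F v p + en nb F v v p := by
  have h1 : (fun y => ⟪F y - F x, v⟫ ^ 2) = fun y => ⟪F p - F x, v⟫ ^ 2 +
      (2 * ⟪F p - F x, v⟫ * ⟪F y - F p, v⟫ + ⟪F y - F p, v⟫ * ⟪F y - F p, v⟫) := by
    funext y
    have : ⟪F y - F x, v⟫ = ⟪F p - F x, v⟫ + ⟪F y - F p, v⟫ := by
      rw [← inner_add_left]
      congr 1
      abel
    rw [this]
    ring
  rw [h1, congrFun (av_add (fun _ => ⟪F p - F x, v⟫ ^ 2) _) p, congrFun (av_const hS _) p,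
    congrFun (av_add (fun y => 2 * ⟪F p - F x, v⟫ * ⟪F y - F p, v⟫) _) p,
    congrFun (av_smul (2 * ⟪F p - F x, v⟫) (fun y => ⟪F y - F p, v⟫)) p]
  unfold dr en
  ring

theorem Wk_drift (hS : ∀ x, x ∈ nb x) (F : V → E) (x : V) (v : E) {L : ℝ}
    (hL : ∀ p, |dr nb F v p| ≤ L) (k : ℕ) (z : V) :
    |Wk nb k (fun y => ⟪F y - F x, v⟫) z - ⟪F z - F x, v⟫| ≤ k * L := by
  induction k with
  | zero => simp [Wk_zero]
  | succ k ih =>
    rw [Wk_succ]
    have h1 : av nb (fun y => ⟪F y - F x, v⟫) = fun p => ⟪F p - F x, v⟫ + dr nb F v p :=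
      funext fun p => av_f hS F x v p
    rw [h1, Wk_add]
    have h2 := Wk_abs_le hS k hL z
    have h3 : Wk nb k (fun y => ⟪F y - F x, v⟫) z + Wk nb k (dr nb F v) z - ⟪F z - F x, v⟫ =
        (Wk nb k (fun y => ⟪F y - F x, v⟫) z - ⟪F z - F x, v⟫) + Wk nb k (dr nb F v) z := by ring
    rw [h3]
    refine (abs_add_le _ _).trans ?_
    push_cast
    linarith

/-- `k` times the averaged form -/
noncomputable def Sk (nb : V → Finset V) (F : V → E) (v : E) (k : ℕ) (x : V) : ℝ :=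
  ∑ j ∈ range k, Wk nb j (en nb F v v) x

theorem Sk_eq (F : V → E) (v : E) (k : ℕ) (x : V) : Sk nb F v k x = k * mB nb F k x v v := by
  unfold Sk
  rw [← inner_ST, inner_ST']

theorem Sk_succ (F : V → E) (v : E) (k : ℕ) (x : V) :
    Sk nb F v (k + 1) x = Sk nb F v k x + Wk nb k (en nb F v v) x := by
  unfold Sk
  rw [Finset.sum_range_succ]

theorem Wk_en_nonneg (F : V → E) (v : E) (k : ℕ) (x : V) : 0 ≤ Wk nb k (en nb F v v) x :=
  Wk_nonneg k (fun p => en_self_nonneg F v p) x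

theorem Sk_nonneg (F : V → E) (v : E) (k : ℕ) (x : V) : 0 ≤ Sk nb F v k x :=
  Finset.sum_nonneg fun j _ => Wk_en_nonneg F v j x

theorem second_upper_aux (hS : ∀ x, x ∈ nb x) (F : V → E) (v : E) {L : ℝ}
    (hL : ∀ p, |dr nb F v p| ≤ L) {K : ℝ} (hK : 0 < K) (j : ℕ) (x : V) :
    Wk nb j (fun y => ⟪F y - F x, v⟫ ^ 2) x ≤
      (1 + 1 / K) ^ j * (Sk nb F v j x + j * (K * L ^ 2)) := by
  induction j with
  | zero => simp [Wk_zero, Sk]
  | succ j ih =>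
    have hr : (1 : ℝ) ≤ 1 + 1 / K := by
      have : 0 < 1 / K := by positivity
      linarith
    have hr' : (1 : ℝ) ≤ (1 + 1 / K) ^ (j + 1) := one_le_pow₀ hr
    have h1 : ∀ p, av nb (fun y => ⟪F y - F x, v⟫ ^ 2) p ≤
        (1 + 1 / K) * ⟪F p - F x, v⟫ ^ 2 + (K * L ^ 2 + en nb F v v p) := by
      intro p
      rw [av_f2 hS]
      have h2 : 2 * ⟪F p - F x, v⟫ * dr nb F v p ≤ 1 / K * ⟪F p - F x, v⟫ ^ 2 + K * L ^ 2 := by
        have h3 : (dr nb F v p) ^ 2 ≤ L ^ 2 := by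
          rw [← sq_abs]
          exact pow_le_pow_left₀ (abs_nonneg _) (hL p) 2
        have h4 : 0 ≤ (⟪F p - F x, v⟫ - K * dr nb F v p) ^ 2 * (1 / K) := by positivity
        have h5 : (⟪F p - F x, v⟫ - K * dr nb F v p) ^ 2 * (1 / K) =
            1 / K * ⟪F p - F x, v⟫ ^ 2 - 2 * ⟪F p - F x, v⟫ * dr nb F v p +
              K * (dr nb F v p) ^ 2 := by
          field_simp
          ring
        have h6 : K * (dr nb F v p) ^ 2 ≤ K * L ^ 2 := mul_le_mul_of_nonneg_left h3 hK.le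
        linarith
      linarith
    rw [Wk_succ]
    refine (Wk_mono j h1 x).trans ?_
    rw [Wk_add, Wk_smul, Wk_add, Wk_const hS, Sk_succ]
    have h7 := mul_le_mul_of_nonneg_left ih (by linarith : (0 : ℝ) ≤ 1 + 1 / K)
    have h8 := Wk_en_nonneg (nb := nb) F v j x
    have h9 : 0 ≤ K * L ^ 2 := by positivity
    have h10 : (1 + 1 / K) * ((1 + 1 / K) ^ j * (Sk nb F v j x + j * (K * L ^ 2))) =
        (1 + 1 / K) ^ (j + 1) * (Sk nb F v j x + j * (K * L ^ 2)) := by ring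
    have h11 : K * L ^ 2 + Wk nb j (en nb F v v) x ≤
        (1 + 1 / K) ^ (j + 1) * (K * L ^ 2 + Wk nb j (en nb F v v) x) :=
      le_mul_of_one_le_left (by linarith) hr'
    push_cast
    rw [h10] at h7
    calc (1 + 1 / K) * Wk nb j (fun y => ⟪F y - F x, v⟫ ^ 2) x +
          (K * L ^ 2 + Wk nb j (en nb F v v) x) ≤
        (1 + 1 / K) ^ (j + 1) * (Sk nb F v j x + j * (K * L ^ 2)) +
          (1 + 1 / K) ^ (j + 1) * (K * L ^ 2 + Wk nb j (en nb F v v) x) := add_le_add h7 h11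
      _ = (1 + 1 / K) ^ (j + 1) *
          (Sk nb F v j x + Wk nb j (en nb F v v) x + (j + 1) * (K * L ^ 2)) := by ring

theorem pow_le_three {k : ℕ} (hk : 1 ≤ k) : (1 + 1 / (k : ℝ)) ^ k ≤ 3 := by
  have hk' : (0 : ℝ) < k := by exact_mod_cast hk
  have h1 : 1 + 1 / (k : ℝ) ≤ Real.exp (1 / k) := by
    have := Real.add_one_le_exp (1 / (k : ℝ))
    linarith
  have h2 : (1 + 1 / (k : ℝ)) ^ k ≤ Real.exp (1 / k) ^ k :=
    pow_le_pow_left₀ (by positivity) h1 k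
  rw [← Real.exp_nat_mul, mul_one_div_cancel hk'.ne'] at h2
  have := Real.exp_one_lt_d9
  linarith

theorem second_upper (hS : ∀ x, x ∈ nb x) (F : V → E) (v : E) {L : ℝ}
    (hL : ∀ p, |dr nb F v p| ≤ L) {k : ℕ} (hk : 1 ≤ k) (x : V) :
    Wk nb k (fun y => ⟪F y - F x, v⟫ ^ 2) x ≤ 3 * (Sk nb F v k x + (k * L) ^ 2) := by
  have hk' : (0 : ℝ) < k := by exact_mod_cast hk
  refine (second_upper_aux hS F v hL hk' k x).trans ?_
  have h1 : Sk nb F v k x + k * (k * L ^ 2) = Sk nb F v k x + (k * L) ^ 2 := by ring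
  rw [h1]
  refine mul_le_mul_of_nonneg_right (pow_le_three hk) ?_
  have := Sk_nonneg (nb := nb) F v k x
  positivity

/-- lower bound -/
theorem second_lower (hS : ∀ x, x ∈ nb x) (F : V → E) (v : E) {L R : ℝ}
    (hL : ∀ p, |dr nb F v p| ≤ L) (x : V) (k : ℕ)
    (hR : ∀ y ∈ rb nb k x, |⟪F y - F x, v⟫| ≤ R) (j : ℕ) (hj : j ≤ k) :
    Sk nb F v j x - 2 * j * (R * L) ≤ Wk nb j (fun y => ⟪F y - F x, v⟫ ^ 2) x := by
  induction j with
  | zero => simp [Wk_zero, Sk]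
  | succ j ih =>
    have hih := ih (by omega)
    have h1 : ∀ p ∈ rb nb j x, ⟪F p - F x, v⟫ ^ 2 + (-(2 * (R * L)) + en nb F v v p) ≤
        av nb (fun y => ⟪F y - F x, v⟫ ^ 2) p := by
      intro p hp
      rw [av_f2 hS]
      have h2 := hR p (rb_mono hS (by omega : j ≤ k) x hp)
      have h3 : |⟪F p - F x, v⟫ * dr nb F v p| ≤ R * L := by
        rw [abs_mul]
        exact mul_le_mul h2 (hL p) (abs_nonneg _) ((abs_nonneg _).trans h2)
      have h4 := (abs_le.1 h3).1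
      linarith
    rw [Wk_succ]
    refine le_trans ?_ (Wk_le_of_rb h1)
    rw [Wk_add, Wk_add, Wk_const hS, Sk_succ]
    push_cast
    linarith

/-- the Ozawa inequality for the walk -/
theorem ozawa_walk (hS : ∀ x, x ∈ nb x) (k : ℕ) {x z : V} (hz : z ∈ nb x) (f : V → ℝ) :
    (Wk nb k f z - Wk nb (k + 1) f x) ^ 2 ≤ 2 * Dk nb k x z *
      (Wk nb k (fun y => f y ^ 2) z + Wk nb (k + 1) (fun y => f y ^ 2) x) := by
  rw [Wk_eq_sum k f z _ (rb_sub k hz), Wk_eq_sum (k + 1) f x _ (Finset.Subset.refl _),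
    Wk_eq_sum k (fun y => f y ^ 2) z _ (rb_sub k hz),
    Wk_eq_sum (k + 1) (fun y => f y ^ 2) x _ (Finset.Subset.refl _)]
  exact ozawa _ _ _ _ (fun i _ => pk_nonneg k z i) (fun i _ => pk_nonneg (k + 1) x i)
    (fun i _ h => pk_abs_cont hz h) (sum_pk hS k z _ (rb_sub k hz))
    (sum_pk hS (k + 1) x _ (Finset.Subset.refl _))

section act

variable {Γ : Type u} [Group Γ] [MulAction Γ V] {π : Γ →* (E ≃ₗᵢ[ℝ] E)} {F : V → E}

theorem vav_sub_self (hS : ∀ x, x ∈ nb x) (F : V → E) (p : V) :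
    vav nb F p - F p = vav nb (fun z => F z - F p) p := by
  have hc : ((nb p).card : ℝ) ≠ 0 := by
    have := Finset.card_pos.mpr ⟨p, hS p⟩
    positivity
  unfold vav
  rw [Finset.sum_sub_distrib, Finset.sum_const, ← Nat.cast_smul_eq_nsmul ℝ, smul_sub, smul_smul,
    inv_mul_cancel₀ hc, one_smul]

theorem drift_all (hV : VG Γ nb o) (hF : Equi π F) {β : ℝ} (hβ : ‖vav nb F o - F o‖ ≤ β) (p : V) :
    ‖vav nb F p - F p‖ ≤ β := by
  classical
  obtain ⟨g, rfl⟩ := hV.trans p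
  rw [vav_sub_self hV.self] at hβ ⊢
  have h1 : vav nb (fun z => F z - F (g • o)) (g • o) = π g (vav nb (fun z => F z - F o) o) := by
    unfold vav
    rw [card_nb_smul hV, map_smul, map_sum]
    congr 1
    refine (Finset.sum_nbij' (fun y => g⁻¹ • y) (fun y => g • y) (fun y hy => ?_) (fun y hy => ?_)
      (fun y _ => smul_inv_smul g y) (fun y _ => inv_smul_smul g y) (fun y _ => ?_))
    · rw [← nb_smul hV g, smul_inv_smul]
      exact hy
    · exact hV.equiv g o y hy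
    · rw [← hF, smul_inv_smul]
  rw [h1, LinearIsometryEquiv.norm_map]
  exact hβ

theorem dr_le (hV : VG Γ nb o) (hF : Equi π F) {β : ℝ} (hβ : ‖vav nb F o - F o‖ ≤ β) (v : E)
    (p : V) : |dr nb F v p| ≤ β * ‖v‖ := by
  unfold dr
  rw [← inner_vav, ← vav_sub_self hV.self]
  refine (abs_real_inner_le_norm _ _).trans ?_
  exact mul_le_mul_of_nonneg_right (drift_all hV hF hβ p) (norm_nonneg _)

theorem Sk_diff (k : ℕ) (x y : V) (v : E) :
    Sk nb F v k x ≤ Sk nb F v k y + ‖ST nb F k x - ST nb F k y‖ * ‖v‖ ^ 2 := by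
  have h := ST_diff (nb := nb) F k x y v v
  rw [← Sk_eq, ← Sk_eq] at h
  have h2 := (abs_le.1 h).2
  rw [← sq] at h2
  linarith

/-- one step: a neighbour `z` of `x` with small divergence -/
theorem ozawa_step (hV : VG Γ nb o) (hF : Equi π F) {c β : ℝ} (hσ : sg nb F o ≤ c)
    (hβ : ‖vav nb F o - F o‖ ≤ β) {k : ℕ} (hk : 1 ≤ k) {x z : V} (hz : z ∈ nb x) {d t : ℝ}
    (hD : Dk nb k x z ≤ d) (hd : 16 * d ≤ 1) (ht : ‖ST nb F k z - ST nb F k x‖ ≤ t) (v : E) :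
    ⟪F z - F x, v⟫ ^ 2 ≤ 8 * d * (9 * Sk nb F v k x + 6 * (t * ‖v‖ ^ 2) + 3 * (c * ‖v‖ ^ 2) +
      9 * ((k + 1) * (β * ‖v‖)) ^ 2) + 4 * ((2 * k + 1) * (β * ‖v‖)) ^ 2 := by
  have hS := hV.self
  set L := β * ‖v‖ with hLdef
  have hL : ∀ p, |dr nb F v p| ≤ L := fun p => dr_le hV hF hβ v p
  have hL0 : 0 ≤ L := (abs_nonneg _).trans (hL o)
  set δ := ⟪F z - F x, v⟫ with hδ
  set f : V → ℝ := fun y => ⟪F y - F x, v⟫ with hf
  have hD0 : 0 ≤ Dk nb k x z := Dk_nonneg hS k hz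
  have hk0 : (0 : ℝ) ≤ k := by positivity
  have h1 : |Wk nb k f z - δ| ≤ k * L := Wk_drift hS F x v hL k z
  have h2 : |Wk nb (k + 1) f x - 0| ≤ ((k + 1 : ℕ) : ℝ) * L := by
    have := Wk_drift hS F x v hL (k + 1) x
    rwa [sub_self, inner_zero_left] at this
  rw [sub_zero] at h2
  push_cast at h2
  have h3 := ozawa_walk hS k hz f
  -- `Wk k f² z`
  have h4 : Wk nb k (fun y => f y ^ 2) z ≤ 6 * (Sk nb F v k z + (k * L) ^ 2) + 2 * δ ^ 2 := by
    have h5 : ∀ y, f y ^ 2 ≤ 2 * ⟪F y - F z, v⟫ ^ 2 + 2 * δ ^ 2 := by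
      intro y
      have : f y = ⟪F y - F z, v⟫ + δ := by
        rw [hf, hδ]
        simp only
        rw [← inner_add_left]
        congr 1
        abel
      rw [this]
      nlinarith [sq_nonneg (⟪F y - F z, v⟫ - δ)]
    refine (Wk_mono k h5 z).trans ?_
    rw [Wk_add, Wk_smul, Wk_const hS]
    have := second_upper hS F v hL hk z
    linarith
  have h6 : Wk nb (k + 1) (fun y => f y ^ 2) x ≤
      3 * (Sk nb F v k x + c * ‖v‖ ^ 2 + ((k + 1) * L) ^ 2) := by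
    have h7 := second_upper hS F v hL (Nat.le_add_left 1 k) x
    rw [Sk_succ] at h7
    push_cast at h7
    have h8 : Wk nb k (en nb F v v) x ≤ c * ‖v‖ ^ 2 := by
      refine (le_abs_self _).trans (Wk_abs_le hS k (fun p => ?_) x)
      refine (en_abs hV hF v v p).trans ?_
      rw [mul_assoc, ← sq]
      exact mul_le_mul_of_nonneg_right hσ (sq_nonneg _)
    refine h7.trans ?_
    linarith
  have h9 : Sk nb F v k z ≤ Sk nb F v k x + t * ‖v‖ ^ 2 := by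
    refine (Sk_diff k z x v).trans ?_
    have := mul_le_mul_of_nonneg_right ht (sq_nonneg ‖v‖)
    linarith
  -- total
  set W := 6 * (Sk nb F v k x + t * ‖v‖ ^ 2 + (k * L) ^ 2) +
    3 * (Sk nb F v k x + c * ‖v‖ ^ 2 + ((k + 1) * L) ^ 2) with hW
  have h10 : Wk nb k (fun y => f y ^ 2) z + Wk nb (k + 1) (fun y => f y ^ 2) x ≤
      W + 2 * δ ^ 2 := by
    rw [hW]
    linarith
  have hWn : 0 ≤ Wk nb k (fun y => f y ^ 2) z + Wk nb (k + 1) (fun y => f y ^ 2) x :=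
    add_nonneg (Wk_nonneg _ (fun _ => sq_nonneg _) _) (Wk_nonneg _ (fun _ => sq_nonneg _) _)
  have h11 : (Wk nb k f z - Wk nb (k + 1) f x) ^ 2 ≤ 2 * d * (W + 2 * δ ^ 2) := by
    refine h3.trans ?_
    have : 2 * Dk nb k x z ≤ 2 * d := by linarith
    exact mul_le_mul this h10 hWn (by linarith)
  have h12 : δ ^ 2 ≤ 2 * (Wk nb k f z - Wk nb (k + 1) f x) ^ 2 + 2 * ((2 * k + 1) * L) ^ 2 := by
    have h13 : |δ - (Wk nb k f z - Wk nb (k + 1) f x)| ≤ (2 * k + 1) * L := by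
      have e : δ - (Wk nb k f z - Wk nb (k + 1) f x) =
          -(Wk nb k f z - δ) + Wk nb (k + 1) f x := by ring
      rw [e]
      refine (abs_add_le _ _).trans ?_
      rw [abs_neg]
      linarith
    have h14 : (δ - (Wk nb k f z - Wk nb (k + 1) f x)) ^ 2 ≤ ((2 * k + 1) * L) ^ 2 := by
      rw [← sq_abs]
      exact pow_le_pow_left₀ (abs_nonneg _) h13 2
    nlinarith [sq_nonneg (δ - 2 * (Wk nb k f z - Wk nb (k + 1) f x))]
  have hd0 : 0 ≤ d := hD0.trans hD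
  have h15 : δ ^ 2 * (1 - 8 * d) ≤ 4 * d * W + 2 * ((2 * k + 1) * L) ^ 2 := by nlinarith
  have h16 : δ ^ 2 * (1 / 2) ≤ δ ^ 2 * (1 - 8 * d) :=
    mul_le_mul_of_nonneg_left (by linarith) (sq_nonneg _)
  have h17 : W ≤ 9 * Sk nb F v k x + 6 * (t * ‖v‖ ^ 2) + 3 * (c * ‖v‖ ^ 2) +
      9 * ((k + 1) * L) ^ 2 := by
    have : (k * L) ^ 2 ≤ ((k + 1) * L) ^ 2 := by
      have : (k : ℝ) * L ≤ (k + 1) * L := by nlinarith
      exact pow_le_pow_left₀ (by positivity) this 2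
    rw [hW]
    linarith
  have h18 : 4 * d * W ≤ 4 * d * (9 * Sk nb F v k x + 6 * (t * ‖v‖ ^ 2) + 3 * (c * ‖v‖ ^ 2) +
      9 * ((k + 1) * L) ^ 2) := mul_le_mul_of_nonneg_left h17 (by linarith)
  linarith

theorem arith_side {k r c q m S a L δ : ℝ} (hk : 768 ≤ k) (hr : r ^ 2 = k) (hr0 : 0 < r)
    (hc : 0 < c) (hq : 0 ≤ q) (hS : S ≤ k * m + a * (c * r * q))
    (h : δ ≤ 8 * (8 * (6 / k)) * (9 * S + 6 * (6 * c * r * q) + 3 * (c * q) +
      9 * ((k + 1) * L) ^ 2) + 4 * ((2 * k + 1) * L) ^ 2) :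
    δ ≤ 3456 * m + 384 * (9 * a + 39) * (c / r * q) + 29 * (k ^ 2 * L ^ 2) := by
  have hk0 : 0 < k := by linarith
  have hr1 : 1 ≤ r := by nlinarith
  have e1 : 8 * (8 * (6 / k)) * (9 * (k * m)) = 3456 * m := by
    field_simp
    ring
  have e2 : 8 * (8 * (6 / k)) * (c * r * q) = 384 * (c / r * q) := by
    have h1 : (c * r * q) / k = c / r * q := by
      rw [← hr]
      field_simp
    rw [← h1]
    ring
  have e3 : 8 * (8 * (6 / k)) * (c * q) ≤ 384 * (c / r * q) := by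
    rw [← e2]
    refine mul_le_mul_of_nonneg_left ?_ (by positivity)
    refine mul_le_mul_of_nonneg_right ?_ hq
    exact le_mul_of_one_le_right hc.le hr1
  have e4 : 8 * (8 * (6 / k)) * (9 * ((k + 1) * L) ^ 2) ≤ 9 * (k ^ 2 * L ^ 2) := by
    have h5 : 8 * (8 * (6 / k)) * (9 * ((k + 1) * L) ^ 2) =
        (3456 * (k + 1) ^ 2 / k) * L ^ 2 := by
      rw [mul_pow]
      ring
    have h6 : 3456 * (k + 1) ^ 2 / k ≤ 9 * k ^ 2 := by
      rw [div_le_iff₀ hk0]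
      nlinarith [mul_nonneg hk0.le (mul_nonneg hk0.le (by linarith : 0 ≤ k - 768))]
    rw [h5]
    have := mul_le_mul_of_nonneg_right h6 (sq_nonneg L)
    linarith
  have e5 : 4 * ((2 * k + 1) * L) ^ 2 ≤ 20 * (k ^ 2 * L ^ 2) := by
    have h5 : 4 * ((2 * k + 1) * L) ^ 2 = (4 * (2 * k + 1) ^ 2) * L ^ 2 := by
      rw [mul_pow]
      ring
    have h6 : 4 * (2 * k + 1) ^ 2 ≤ 20 * k ^ 2 := by nlinarith
    rw [h5]
    have := mul_le_mul_of_nonneg_right h6 (sq_nonneg L)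
    linarith
  have hd0 : 0 ≤ 8 * (8 * (6 / k)) := by positivity
  have e6 : 8 * (8 * (6 / k)) * S ≤ 8 * (8 * (6 / k)) * (k * m + a * (c * r * q)) :=
    mul_le_mul_of_nonneg_left hS hd0
  have e7 : 8 * (8 * (6 / k)) * (9 * S + 6 * (6 * c * r * q) + 3 * (c * q) +
      9 * ((k + 1) * L) ^ 2) = 9 * (8 * (8 * (6 / k)) * S) +
      36 * (8 * (8 * (6 / k)) * (c * r * q)) + 3 * (8 * (8 * (6 / k)) * (c * q)) +
      8 * (8 * (6 / k)) * (9 * ((k + 1) * L) ^ 2) := by ring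
  have e8 : 9 * (8 * (8 * (6 / k)) * (k * m + a * (c * r * q))) =
      8 * (8 * (6 / k)) * (9 * (k * m)) + 9 * a * (8 * (8 * (6 / k)) * (c * r * q)) := by ring
  rw [e1, e2] at e8
  rw [e7, e2] at h
  linarith

/-- a common neighbour with small divergence and small distance of the tensors -/
theorem near_good (hV : VG Γ nb o) (hF : Equi π F) {c : ℝ} (hc : 0 < c) (hσ : sg nb F o ≤ c)
    {k : ℕ} (hk : 1 ≤ k) (hH : (k : ℝ) * (Hn nb (k + 1) o - Hn nb k o) ≤ 6) {g : Γ}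
    (hg : Near nb o g) : ∃ z, z ∈ nb o ∧ z ∈ nb (g • o) ∧
      ‖ST nb F k z - ST nb F k o‖ ≤ 6 * c * Real.sqrt k ∧
      ‖ST nb F k z - ST nb F k (g • o)‖ ≤ 6 * c * Real.sqrt k ∧
      Dk nb k o z ≤ 8 * (6 / k) ∧ Dk nb k (g • o) z ≤ 8 * (6 / k) := by
  have hk0 : (0 : ℝ) < k := by exact_mod_cast hk
  have hks : Real.sqrt k ^ 2 = k := Real.sq_sqrt hk0.le
  have hA : (0 : ℝ) < 4 * k * c ^ 2 := by positivity
  have hav : ∀ x, av nb (fun y => ‖ST nb F k y - ST nb F k x‖ ^ 2) x ≤ 4 * k * c ^ 2 := by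
    intro x
    refine (av_ST hV hF k x).trans ?_
    have h0 := sg_nonneg (nb := nb) F o
    have : (sg nb F o) ^ 2 ≤ c ^ 2 := by gcongr
    nlinarith
  have hB : (0 : ℝ) < 6 / k := by positivity
  have hav2 : ∀ x, av nb (Dk nb k x) x ≤ 6 / k := by
    intro x
    have h1 : av nb (Dk nb k x) x = Hn nb (k + 1) x - Hn nb k x := av_Dk hV k x
    rw [h1, Hn_eq hV (k + 1) x, Hn_eq hV k x, le_div_iff₀ hk0]
    linarith
  obtain ⟨z, hz1, hz2, h1, h2, h3, h4⟩ := near_common hV hg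
    (fun x y => ‖ST nb F k y - ST nb F k x‖ ^ 2) (fun x y => Dk nb k x y)
    (fun _ _ _ => sq_nonneg _) (fun x y hy => Dk_nonneg hV.self k hy) hA hB hav hav2
  refine ⟨z, hz1, hz2, ?_, ?_, h3, h4⟩
  · refine abs_le_of_sq_le_sq' ?_ (by positivity) |>.2
    refine h1.trans ?_
    rw [mul_pow, mul_pow, hks]
    nlinarith [sq_nonneg c]
  · refine abs_le_of_sq_le_sq' ?_ (by positivity) |>.2
    refine h2.trans ?_
    rw [mul_pow, mul_pow, hks]
    nlinarith [sq_nonneg c]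

/-- **(5), near elements.** -/
theorem ozawa_near (hV : VG Γ nb o) (hF : Equi π F) {c β : ℝ} (hc : 0 < c) (hσ : sg nb F o ≤ c)
    (hβ : ‖vav nb F o - F o‖ ≤ β) {k : ℕ} (hk : 768 ≤ k)
    (hH : (k : ℝ) * (Hn nb (k + 1) o - Hn nb k o) ≤ 6) {g : Γ} (hg : Near nb o g) (v : E) :
    ⟪F (g • o) - F o, v⟫ ^ 2 ≤ 150000 * (⟪Tk nb F k o v, v⟫ +
      (c / Real.sqrt k + k ^ 2 * β ^ 2) * ‖v‖ ^ 2) := by
  have hk1 : 1 ≤ k := by omega
  have hkr : (768 : ℝ) ≤ k := by exact_mod_cast hk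
  have hk0 : (0 : ℝ) < k := by linarith
  have hsq : 0 < Real.sqrt k := Real.sqrt_pos.2 hk0
  have hks : Real.sqrt k ^ 2 = k := Real.sq_sqrt hk0.le
  obtain ⟨z, hz1, hz2, ht1, ht2, h3, h4⟩ := near_good hV hF hc hσ hk1 hH hg
  have hd : 16 * (8 * (6 / (k : ℝ))) ≤ 1 := by
    rw [show 16 * (8 * (6 / (k : ℝ))) = 768 / k by ring, div_le_one hk0]
    exact hkr
  have b1 := ozawa_step hV hF hσ hβ hk1 hz1 h3 hd ht1 v
  have b2 := ozawa_step hV hF hσ hβ hk1 hz2 h4 hd ht2 v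
  have hS1 : Sk nb F v k o = k * ⟪Tk nb F k o v, v⟫ := by rw [Sk_eq, inner_Tk]
  have hS2 : Sk nb F v k (g • o) ≤
      k * ⟪Tk nb F k o v, v⟫ + 12 * (c * Real.sqrt k * ‖v‖ ^ 2) := by
    rw [← hS1]
    refine (Sk_diff k (g • o) o v).trans ?_
    have := mul_le_mul_of_nonneg_right (near_ST hV hF hc hσ hk1 hg) (sq_nonneg ‖v‖)
    linarith
  have c1 := arith_side (a := 0) hkr hks hsq hc (sq_nonneg ‖v‖)
    (by rw [hS1]; linarith) b1
  have c2 := arith_side (a := 12) hkr hks hsq hc (sq_nonneg ‖v‖) hS2 b2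
  have hsplit : ⟪F (g • o) - F o, v⟫ ^ 2 ≤ 2 * ⟪F z - F o, v⟫ ^ 2 +
      2 * ⟪F z - F (g • o), v⟫ ^ 2 := by
    have : ⟪F (g • o) - F o, v⟫ = ⟪F z - F o, v⟫ - ⟪F z - F (g • o), v⟫ := by
      rw [← inner_sub_left]
      congr 1
      abel
    rw [this]
    nlinarith [sq_nonneg (⟪F z - F o, v⟫ + ⟪F z - F (g • o), v⟫)]
  have hm0 : 0 ≤ ⟪Tk nb F k o v, v⟫ := Tk_nonneg F k o v
  have hr0 : 0 ≤ c / Real.sqrt k * ‖v‖ ^ 2 := by positivity
  have hr1 : 0 ≤ (k : ℝ) ^ 2 * (β * ‖v‖) ^ 2 := by positivity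
  have hr2 : (k : ℝ) ^ 2 * β ^ 2 * ‖v‖ ^ 2 = k ^ 2 * (β * ‖v‖) ^ 2 := by ring
  refine hsplit.trans ?_
  rw [add_mul, hr2]
  linarith

/-- **(6) selection.** -/
theorem select (hV : VG Γ nb o) (hF : Equi π F) {β R lam : ℝ} {k : ℕ} (hk : 1 ≤ k)
    (hβ : ‖vav nb F o - F o‖ ≤ β) (hR : 0 < R) (hRb : ∀ y ∈ rb nb k o, ‖F y - F o‖ ≤ R)
    (hlam : 0 < lam) {u : E} (hu : ‖u‖ ≤ 2) (hT : lam ≤ ⟪Tk nb F k o u, u⟫)
    (hsmall : 32 * R * β ≤ lam) :
    ∃ y ∈ rb nb k o, min (lam * k / (8 * R)) R ≤ ⟪F y - F o, u⟫ := by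
  by_contra hcon
  push Not at hcon
  have hS := hV.self
  have hk' : (1 : ℝ) ≤ k := by exact_mod_cast hk
  have hβ0 : 0 ≤ β := (norm_nonneg _).trans hβ
  have hL : ∀ p, |dr nb F u p| ≤ β * 2 := fun p =>
    (dr_le hV hF hβ u p).trans (mul_le_mul_of_nonneg_left hu hβ0)
  have hfR : ∀ y ∈ rb nb k o, |⟪F y - F o, u⟫| ≤ 2 * R := by
    intro y hy
    refine (abs_real_inner_le_norm _ _).trans ?_
    have := mul_le_mul (hRb y hy) hu (norm_nonneg _) hR.le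
    linarith
  have h1 := second_lower hS F u hL o k hfR k le_rfl
  set f : V → ℝ := fun y => ⟪F y - F o, u⟫ with hf
  have h2 : |Wk nb k f o - 0| ≤ k * (β * 2) := by
    have := Wk_drift hS F o u hL k o
    rwa [sub_self, inner_zero_left] at this
  rw [sub_zero] at h2
  set e := min (lam * k / (8 * R)) R with he
  have he0 : 0 < e := lt_min (by positivity) hR
  have he1 : e ≤ lam * k / (8 * R) := min_le_left _ _
  have he2 : e ≤ R := min_le_right _ _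
  -- `f ^ 2 ≤ (e - 2R) f + 2R e`
  have h3 : ∀ y ∈ rb nb k o, f y ^ 2 ≤ (e - 2 * R) * f y + 2 * R * e := by
    intro y hy
    have a1 := (abs_le.1 (hfR y hy)).1
    have a2 := (hcon y hy).le
    have a3 : 0 ≤ (f y + 2 * R) * (e - f y) := mul_nonneg (by linarith) (by linarith)
    nlinarith
  have h4 : Wk nb k (fun y => f y ^ 2) o ≤ (e - 2 * R) * Wk nb k f o + 2 * R * e := by
    refine (Wk_le_of_rb h3).trans ?_
    rw [Wk_add, Wk_smul, Wk_const hS]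
  rw [Sk_eq, ← inner_Tk] at h1
  have h5 : (k : ℝ) * lam ≤ k * ⟪Tk nb F k o u, u⟫ := mul_le_mul_of_nonneg_left hT (by linarith)
  have h6 : (e - 2 * R) * Wk nb k f o ≤ 2 * R * (k * (β * 2)) := by
    have a1 := (abs_le.1 h2).1
    have a2 := (abs_le.1 h2).2
    nlinarith
  have h7 : 2 * R * e ≤ lam * k / 4 := by
    have := mul_le_mul_of_nonneg_left he1 (by positivity : 0 ≤ 2 * R)
    have h8 : 2 * R * (lam * k / (8 * R)) = lam * k / 4 := by
      field_simp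
      ring
    linarith
  -- `k lam - 4 k 2R β*... `
  have h9 : (k : ℝ) * (32 * R * β) ≤ k * lam := mul_le_mul_of_nonneg_left hsmall (by linarith)
  have h10 : 0 < (k : ℝ) * lam := by positivity
  nlinarith

end act

section prod

variable {Γ : Type u} [Group Γ] (π : Γ →* (E ≃ₗᵢ[ℝ] E))

/-- (5) is stable under products -/
theorem oz_mul (T : E →ₗ[ℝ] E) (b : Γ → E) {g h : Γ} (hb : b (g * h) = b g + π g (b h))
    {D D' e η : ℝ} (hD' : 0 ≤ D')
    (hg : ∀ a, ⟪b g, a⟫ ^ 2 ≤ D * (⟪T a, a⟫ + e * ‖a‖ ^ 2))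
    (hh : ∀ a, ⟪b h, a⟫ ^ 2 ≤ D' * (⟪T a, a⟫ + e * ‖a‖ ^ 2))
    (hc : ∀ a, ‖T (π g a) - π g (T a)‖ ≤ η * ‖a‖) (a : E) :
    ⟪b (g * h), a⟫ ^ 2 ≤ (2 * D + 2 * D') * (⟪T a, a⟫ + e * ‖a‖ ^ 2) +
      2 * D' * (η * ‖a‖ ^ 2) := by
  set x := (π g)⁻¹ a with hx
  have e1 : π g x = a := by
    show (π g * (π g)⁻¹) a = a
    rw [mul_inv_cancel]; rfl
  have hnx : ‖x‖ = ‖a‖ := by
    have := LinearIsometryEquiv.norm_map (π g) x
    rw [e1] at this
    exact this.symm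
  have e2 : ⟪π g (b h), a⟫ = ⟪b h, x⟫ := by
    rw [← e1, LinearIsometryEquiv.inner_map_map]
  have h1 : ⟪T x, x⟫ ≤ ⟪T a, a⟫ + η * ‖a‖ ^ 2 := by
    have h2 : ⟪T x, x⟫ = ⟪π g (T x), a⟫ := by
      rw [← LinearIsometryEquiv.inner_map_map (π g) (T x) x, e1]
    have h3 : ⟪π g (T x), a⟫ = ⟪T a, a⟫ - ⟪T (π g x) - π g (T x), a⟫ := by
      rw [inner_sub_left, e1]
      ring
    have h4 := abs_real_inner_le_norm (T (π g x) - π g (T x)) a
    have h5 := hc x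
    rw [hnx] at h5
    have h6 := mul_le_mul_of_nonneg_right h5 (norm_nonneg a)
    have h7 := (abs_le.1 (h4.trans h6)).1
    rw [h2, h3]
    nlinarith
  have h8 := hg a
  have h9 := hh x
  rw [hnx] at h9
  have h10 : D' * (⟪T x, x⟫ + e * ‖a‖ ^ 2) ≤ D' * (⟪T a, a⟫ + η * ‖a‖ ^ 2 + e * ‖a‖ ^ 2) :=
    mul_le_mul_of_nonneg_left (by linarith) hD'
  rw [hb, inner_add_left, e2]
  nlinarith [sq_nonneg (⟪b g, a⟫ - ⟪b h, x⟫)]

end prod

end Vale.Agent.P151.R3.O
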