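import Mathlib.Analysis.InnerProductSpace.TensorProduct
import Vale.Agent.P151.H982.VMix
import Vale.Agent.P151.R3.H430.Oz2

/-!
P151, route R3, block O: the Hilbert-Schmidt rate for the averaged energy forms.
-/

universe u v w

open Finset
open scoped TensorProduct RealInnerProductSpace

namespace Vale.Agent.P151.R3.O

open Vale.Agent.P151.H982

variable {V : Type v} {nb : V → Finset V} {o : V}

section vec

variable {X : Type w} [NormedAddCommGroup X] [InnerProductSpace ℝ X]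

/-- vector valued average over the neighbours -/
noncomputable def vav (nb : V → Finset V) (f : V → X) (x : V) : X :=
  ((nb x).card : ℝ)⁻¹ • ∑ y ∈ nb x, f y

/-- vector valued expectation of `f (X_n)` -/
noncomputable def vW (nb : V → Finset V) (f : V → X) : ℕ → V → X
  | 0, x => f x
  | n + 1, x => vav nb (vW nb f n) x

/-- sum of the expectations of `f (X_j)`, `j < n` -/
noncomputable def vS (nb : V → Finset V) (f : V → X) : ℕ → V → X
  | 0, _ => 0
  | n + 1, x => f x + vav nb (vS nb f n) x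

theorem vav_add (f g : V → X) (x : V) :
    vav nb (fun y => f y + g y) x = vav nb f x + vav nb g x := by
  unfold vav
  rw [Finset.sum_add_distrib, smul_add]

theorem vS_succ (f : V → X) (n : ℕ) (x : V) : vS nb f (n + 1) x = vS nb f n x + vW nb f n x := by
  induction n generalizing x with
  | zero =>
    show f x + vav nb (fun _ => (0 : X)) x = 0 + f x
    unfold vav
    simp
  | succ n ih =>
    show f x + vav nb (vS nb f (n + 1)) x = (f x + vav nb (vS nb f n) x) + vav nb (vW nb f n) x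
    have : vS nb f (n + 1) = fun y => vS nb f n y + vW nb f n y := funext ih
    rw [this, vav_add, add_assoc]

theorem vav_vS (f : V → X) (n : ℕ) (x : V) :
    vav nb (vS nb f n) x = vS nb f n x + (vW nb f n x - f x) := by
  have h1 : vS nb f (n + 1) x = f x + vav nb (vS nb f n) x := rfl
  have h2 := vS_succ (nb := nb) f n x
  rw [h1] at h2
  rw [← add_sub_assoc, ← h2]
  abel

theorem norm_vav_le (hS : ∀ x, x ∈ nb x) {f : V → X} {M : ℝ} (h : ∀ y, ‖f y‖ ≤ M) (x : V) :
    ‖vav nb f x‖ ≤ M := by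
  have hc : (0 : ℝ) < (nb x).card := by
    exact_mod_cast Finset.card_pos.mpr ⟨x, hS x⟩
  unfold vav
  rw [norm_smul, norm_inv, Real.norm_natCast, inv_mul_le_iff₀ hc]
  calc ‖∑ y ∈ nb x, f y‖ ≤ ∑ y ∈ nb x, ‖f y‖ := norm_sum_le _ _
    _ ≤ ∑ _y ∈ nb x, M := Finset.sum_le_sum fun y _ => h y
    _ = (nb x).card * M := by rw [Finset.sum_const, nsmul_eq_mul]

theorem norm_vW_le (hS : ∀ x, x ∈ nb x) {f : V → X} {M : ℝ} (h : ∀ y, ‖f y‖ ≤ M) (n : ℕ) (x : V) :
    ‖vW nb f n x‖ ≤ M := by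
  induction n generalizing x with
  | zero => exact h x
  | succ n ih => exact norm_vav_le hS ih x

theorem norm_vS_le (hS : ∀ x, x ∈ nb x) {f : V → X} {M : ℝ} (h : ∀ y, ‖f y‖ ≤ M) (n : ℕ) (x : V) :
    ‖vS nb f n x‖ ≤ n * M := by
  induction n with
  | zero => simp [vS]
  | succ n ih =>
    rw [vS_succ]
    refine (norm_add_le _ _).trans ?_
    have := norm_vW_le hS h n x
    push_cast
    linarith

theorem inner_vav (f : V → X) (x : V) (a : X) :
    ⟪vav nb f x, a⟫ = av nb (fun y => ⟪f y, a⟫) x := by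
  unfold vav av
  rw [real_inner_smul_left, sum_inner]

theorem inner_vW (f : V → X) (n : ℕ) (x : V) (a : X) :
    ⟪vW nb f n x, a⟫ = Wk nb n (fun y => ⟪f y, a⟫) x := by
  induction n generalizing x with
  | zero => rfl
  | succ n ih =>
    rw [Wk_succ', ← funext ih]
    exact inner_vav _ _ _

theorem inner_vS (f : V → X) (n : ℕ) (x : V) (a : X) :
    ⟪vS nb f n x, a⟫ = ∑ j ∈ range n, Wk nb j (fun y => ⟪f y, a⟫) x := by
  induction n with
  | zero => simp [vS]
  | succ n ih =>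
    rw [vS_succ, inner_add_left, ih, inner_vW, Finset.sum_range_succ]

/-- the average of the squares of the differences -/
theorem av_sq_vS (hS : ∀ x, x ∈ nb x) {f : V → X} {M : ℝ} (h : ∀ y, ‖f y‖ ≤ M) (n : ℕ)
    (hn : ∀ x y, ‖vS nb f n x‖ = ‖vS nb f n y‖) (x : V) :
    av nb (fun y => ‖vS nb f n y - vS nb f n x‖ ^ 2) x ≤ 4 * n * M ^ 2 := by
  have hM : 0 ≤ M := (norm_nonneg _).trans (h x)
  have e1 : av nb (fun y => ‖vS nb f n y - vS nb f n x‖ ^ 2) x =
      2 * ⟪f x - vW nb f n x, vS nb f n x⟫ := by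
    have e2 : (fun y => ‖vS nb f n y - vS nb f n x‖ ^ 2) =
        fun y => 2 * ‖vS nb f n x‖ ^ 2 + (-2) * ⟪vS nb f n y, vS nb f n x⟫ := by
      funext y
      rw [norm_sub_sq_real, hn y x]
      ring
    rw [e2, congrFun (av_add (fun _ => 2 * ‖vS nb f n x‖ ^ 2) _) x,
      congrFun (av_const hS (2 * ‖vS nb f n x‖ ^ 2)) x, congrFun (av_smul (-2) _) x,
      ← inner_vav, vav_vS, inner_add_left, real_inner_self_eq_norm_sq, inner_sub_left,
      inner_sub_left]
    ring
  rw [e1]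
  have h1 : ⟪f x - vW nb f n x, vS nb f n x⟫ ≤ (2 * M) * (n * M) := by
    refine (real_inner_le_norm _ _).trans (mul_le_mul ?_ (norm_vS_le hS h n x) (norm_nonneg _)
      (by positivity))
    have h2 := norm_sub_le (f x) (vW nb f n x)
    have h3 := norm_vW_le hS h n x
    have h4 := h x
    linarith
  linarith

end vec

section common

/-- many common neighbours: two nonnegative functions small on average on both sides are
simultaneously small at some common neighbour. -/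
theorem exists_common [DecidableEq V] {s t : Finset V} {N : ℝ} (hN : 0 < N) (hst : N ≤ 2 * (s ∩ t).card) (f₁ g₁ f₂ g₂ : V → ℝ)
    (hf₁ : ∀ y ∈ s, 0 ≤ f₁ y) (hg₁ : ∀ y ∈ s, 0 ≤ g₁ y) (hf₂ : ∀ y ∈ t, 0 ≤ f₂ y)
    (hg₂ : ∀ y ∈ t, 0 ≤ g₂ y) {A B : ℝ} (hA : 0 < A) (hB : 0 < B)
    (h1 : ∑ y ∈ s, f₁ y ≤ A * N) (h2 : ∑ y ∈ t, f₂ y ≤ A * N)
    (h3 : ∑ y ∈ s, g₁ y ≤ B * N) (h4 : ∑ y ∈ t, g₂ y ≤ B * N) :
    ∃ y, y ∈ s ∧ y ∈ t ∧ f₁ y ≤ 8 * A ∧ f₂ y ≤ 8 * A ∧ g₁ y ≤ 8 * B ∧ g₂ y ≤ 8 * B := by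
  by_contra hcon
  push Not at hcon
  have hpos : 0 < (s ∩ t).card := by
    have : (0 : ℝ) < (s ∩ t).card := by linarith
    exact_mod_cast this
  have key : ∀ y ∈ s ∩ t, (1 : ℝ) < (f₁ y + f₂ y) / (8 * A) + (g₁ y + g₂ y) / (8 * B) := by
    intro y hy
    obtain ⟨hy1, hy2⟩ := Finset.mem_inter.1 hy
    have hc := hcon y hy1 hy2
    have a1 := hf₁ y hy1
    have a2 := hf₂ y hy2
    have a3 := hg₁ y hy1
    have a4 := hg₂ y hy2
    have p1 : 0 ≤ (f₁ y + f₂ y) / (8 * A) := by positivity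
    have p2 : 0 ≤ (g₁ y + g₂ y) / (8 * B) := by positivity
    by_cases c1 : f₁ y ≤ 8 * A
    · by_cases c2 : f₂ y ≤ 8 * A
      · by_cases c3 : g₁ y ≤ 8 * B
        · have c4 := hc c1 c2 c3
          have : 1 < (g₁ y + g₂ y) / (8 * B) := by
            rw [one_lt_div (by positivity)]
            linarith
          linarith
        · have : 1 < (g₁ y + g₂ y) / (8 * B) := by
            rw [one_lt_div (by positivity)]
            linarith
          linarith
      · have : 1 < (f₁ y + f₂ y) / (8 * A) := by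
          rw [one_lt_div (by positivity)]
          linarith
        linarith
    · have : 1 < (f₁ y + f₂ y) / (8 * A) := by
        rw [one_lt_div (by positivity)]
        linarith
      linarith
  have hsum : ((s ∩ t).card : ℝ) <
      ∑ y ∈ s ∩ t, ((f₁ y + f₂ y) / (8 * A) + (g₁ y + g₂ y) / (8 * B)) := by
    have : ((s ∩ t).card : ℝ) = ∑ y ∈ s ∩ t, (1 : ℝ) := by simp
    rw [this]
    exact Finset.sum_lt_sum_of_nonempty (Finset.card_pos.1 hpos) key
  have hle : ∀ (r : Finset V) (φ : V → ℝ), s ∩ t ⊆ r → (∀ y ∈ r, 0 ≤ φ y) →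
      ∑ y ∈ s ∩ t, φ y ≤ ∑ y ∈ r, φ y := fun r φ hr hφ =>
    Finset.sum_le_sum_of_subset_of_nonneg hr fun y hy _ => hφ y hy
  have b1 := hle s f₁ Finset.inter_subset_left hf₁
  have b2 := hle t f₂ Finset.inter_subset_right hf₂
  have b3 := hle s g₁ Finset.inter_subset_left hg₁
  have b4 := hle t g₂ Finset.inter_subset_right hg₂
  rw [Finset.sum_add_distrib, ← Finset.sum_div, ← Finset.sum_div, Finset.sum_add_distrib,
    Finset.sum_add_distrib] at hsum
  have c1 : (∑ y ∈ s ∩ t, f₁ y + ∑ y ∈ s ∩ t, f₂ y) / (8 * A) ≤ N / 4 := by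
    rw [div_le_iff₀ (by positivity)]
    nlinarith
  have c2 : (∑ y ∈ s ∩ t, g₁ y + ∑ y ∈ s ∩ t, g₂ y) / (8 * B) ≤ N / 4 := by
    rw [div_le_iff₀ (by positivity)]
    nlinarith
  linarith

end common

section HS

variable {Γ : Type u} [Group Γ] [MulAction Γ V]
variable {E : Type w} [NormedAddCommGroup E] [InnerProductSpace ℝ E]

/-- the energy tensor at `p` -/
noncomputable def eT (nb : V → Finset V) (F : V → E) (p : V) : E ⊗[ℝ] E :=
  vav nb (fun z => (F z - F p) ⊗ₜ[ℝ] (F z - F p)) p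

theorem inner_eT (F : V → E) (p : V) (a b : E) : ⟪eT nb F p, a ⊗ₜ[ℝ] b⟫ = en nb F a b p := by
  unfold eT en
  exact inner_vav _ _ _

theorem norm_eT_le {π : Γ →* (E ≃ₗᵢ[ℝ] E)} {F : V → E} (hV : VG Γ nb o) (hF : Equi π F) (p : V) :
    ‖eT nb F p‖ ≤ sg nb F o := by
  rw [← sg_eq hV hF p]
  have hc := card_pos hV p
  unfold eT vav sg av
  rw [norm_smul, norm_inv, Real.norm_natCast]
  refine mul_le_mul_of_nonneg_left ((norm_sum_le _ _).trans (le_of_eq ?_)) (by positivity)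
  refine Finset.sum_congr rfl fun z _ => ?_
  rw [TensorProduct.norm_tmul]
  exact (sq _).symm

theorem vav_act {X : Type*} [NormedAddCommGroup X] [InnerProductSpace ℝ X] (hV : VG Γ nb o)
    (g : Γ) (U : X ≃ₗᵢ[ℝ] X) (f : V → X) (hf : ∀ y, f (g • y) = U (f y)) (x : V) :
    vav nb f (g • x) = U (vav nb f x) := by
  classical
  unfold vav
  rw [card_nb_smul hV, map_smul, map_sum]
  congr 1
  refine (Finset.sum_nbij' (fun y => g⁻¹ • y) (fun y => g • y) (fun y hy => ?_) (fun y hy => ?_)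
    (fun y _ => smul_inv_smul g y) (fun y _ => inv_smul_smul g y) (fun y _ => ?_))
  · rw [← nb_smul hV g, smul_inv_smul]
    exact hy
  · exact hV.equiv g x y hy
  · rw [← hf, smul_inv_smul]

theorem vS_act {X : Type*} [NormedAddCommGroup X] [InnerProductSpace ℝ X] (hV : VG Γ nb o)
    (g : Γ) (U : X ≃ₗᵢ[ℝ] X) (f : V → X) (hf : ∀ y, f (g • y) = U (f y)) (n : ℕ) (x : V) :
    vS nb f n (g • x) = U (vS nb f n x) := by
  induction n generalizing x with
  | zero => simp [vS]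
  | succ n ih =>
    show f (g • x) + vav nb (vS nb f n) (g • x) = U (f x + vav nb (vS nb f n) x)
    rw [map_add, hf, vav_act hV g U _ ih]

theorem eT_act {π : Γ →* (E ≃ₗᵢ[ℝ] E)} {F : V → E} (hV : VG Γ nb o) (hF : Equi π F) (g : Γ)
    (p : V) : eT nb F (g • p) = TensorProduct.congrIsometry (π g) (π g) (eT nb F p) := by
  classical
  unfold eT vav
  rw [card_nb_smul hV, map_smul, map_sum]
  congr 1
  refine (Finset.sum_nbij' (fun y => g⁻¹ • y) (fun y => g • y) (fun y hy => ?_) (fun y hy => ?_)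
    (fun y _ => smul_inv_smul g y) (fun y _ => inv_smul_smul g y) (fun y _ => ?_))
  · rw [← nb_smul hV g, smul_inv_smul]
    exact hy
  · exact hV.equiv g p y hy
  · rw [TensorProduct.congrIsometry_apply]
    have : F y - F (g • p) = π g (F (g⁻¹ • y) - F p) := by
      rw [← hF, smul_inv_smul]
    rw [this]
    rfl

/-- the sum of the expected energy tensors -/
noncomputable def ST (nb : V → Finset V) (F : V → E) (n : ℕ) (x : V) : E ⊗[ℝ] E :=
  vS nb (eT nb F) n x

theorem norm_ST_eq {π : Γ →* (E ≃ₗᵢ[ℝ] E)} {F : V → E} (hV : VG Γ nb o) (hF : Equi π F) (n : ℕ)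
    (x y : V) : ‖ST nb F n x‖ = ‖ST nb F n y‖ := by
  have key : ∀ x, ‖ST nb F n x‖ = ‖ST nb F n o‖ := by
    intro x
    obtain ⟨g, rfl⟩ := hV.trans x
    unfold ST
    rw [vS_act hV g (TensorProduct.congrIsometry (π g) (π g)) _ (fun y => eT_act hV hF g y),
      LinearIsometryEquiv.norm_map]
  rw [key x, key y]

theorem av_ST {π : Γ →* (E ≃ₗᵢ[ℝ] E)} {F : V → E} (hV : VG Γ nb o) (hF : Equi π F) (n : ℕ)
    (x : V) : av nb (fun y => ‖ST nb F n y - ST nb F n x‖ ^ 2) x ≤ 4 * n * (sg nb F o) ^ 2 :=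
  av_sq_vS hV.self (fun p => norm_eT_le hV hF p) n (fun x y => norm_ST_eq hV hF n x y) x

theorem inner_ST (F : V → E) (n : ℕ) (x : V) (a b : E) :
    ⟪ST nb F n x, a ⊗ₜ[ℝ] b⟫ = ∑ j ∈ range n, Wk nb j (en nb F a b) x := by
  unfold ST
  rw [inner_vS]
  refine Finset.sum_congr rfl fun j _ => ?_
  congr 1
  funext p
  exact inner_eT F p a b

theorem inner_ST' (F : V → E) (n : ℕ) (x : V) (a b : E) :
    ⟪ST nb F n x, a ⊗ₜ[ℝ] b⟫ = n * mB nb F n x a b := by
  rw [inner_ST]
  unfold mB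
  rcases Nat.eq_zero_or_pos n with h | h
  · subst h; simp
  · rw [← mul_assoc, mul_inv_cancel₀ (by positivity), one_mul]

theorem ST_diff (F : V → E) (n : ℕ) (x y : V) (a b : E) :
    |n * mB nb F n x a b - n * mB nb F n y a b| ≤ ‖ST nb F n x - ST nb F n y‖ * (‖a‖ * ‖b‖) := by
  rw [← inner_ST', ← inner_ST']
  have h1 := inner_sub_left (𝕜 := ℝ) (ST nb F n x) (ST nb F n y) (a ⊗ₜ[ℝ] b)
  have h2 := abs_real_inner_le_norm (ST nb F n x - ST nb F n y) (a ⊗ₜ[ℝ] b)
  rw [TensorProduct.norm_tmul, h1] at h2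
  exact h2

end HS

end Vale.Agent.P151.R3.O
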