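import Vale.Agent.P151.R3.H430.Oz3

/-!
P151, route R3, block O: the averaged energy operators, and their commutation with the near group
elements.
-/

universe u v w

open Finset
open scoped TensorProduct RealInnerProductSpace

namespace Vale.Agent.P151.R3.O

open Vale.Agent.P151.H982

variable {V : Type v} {nb : V → Finset V} {o : V}
variable {E : Type w} [NormedAddCommGroup E] [InnerProductSpace ℝ E]

/-- rank one operator -/
noncomputable def rone (a : E) : E →ₗ[ℝ] E where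
  toFun v := ⟪a, v⟫ • a
  map_add' v v' := by rw [inner_add_right, add_smul]
  map_smul' c v := by rw [RingHom.id_apply, real_inner_smul_right, mul_smul]

theorem rone_apply (a v : E) : rone a v = ⟪a, v⟫ • a := rfl

/-- the averaged energy operator of the walk started at `x` -/
noncomputable def Tk (nb : V → Finset V) (F : V → E) (k : ℕ) (x : V) : E →ₗ[ℝ] E :=
  (k : ℝ)⁻¹ • ∑ j ∈ range k, ∑ p ∈ rb nb j x, pk nb j x p •
    (((nb p).card : ℝ)⁻¹ • ∑ z ∈ nb p, rone (F z - F p))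

theorem inner_Tk (F : V → E) (k : ℕ) (x : V) (a b : E) :
    ⟪Tk nb F k x a, b⟫ = mB nb F k x a b := by
  unfold Tk mB
  rw [LinearMap.smul_apply, real_inner_smul_left, LinearMap.sum_apply, sum_inner]
  congr 1
  refine Finset.sum_congr rfl fun j _ => ?_
  rw [LinearMap.sum_apply, sum_inner, Wk_eq_sum j _ x _ (Finset.Subset.refl _)]
  refine Finset.sum_congr rfl fun p _ => ?_
  rw [LinearMap.smul_apply, real_inner_smul_left, LinearMap.smul_apply, real_inner_smul_left,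
    LinearMap.sum_apply, sum_inner]
  unfold en av
  congr 2
  refine Finset.sum_congr rfl fun z _ => ?_
  rw [rone_apply, real_inner_smul_left]

theorem Tk_symm (F : V → E) (k : ℕ) (x : V) (a b : E) :
    ⟪Tk nb F k x a, b⟫ = ⟪a, Tk nb F k x b⟫ := by
  rw [real_inner_comm _ a, inner_Tk, inner_Tk, mB_comm]

theorem Tk_nonneg (F : V → E) (k : ℕ) (x : V) (a : E) : 0 ≤ ⟪Tk nb F k x a, a⟫ := by
  rw [inner_Tk]
  exact mB_nonneg F k x a

section act

variable {Γ : Type u} [Group Γ] [MulAction Γ V] {π : Γ →* (E ≃ₗᵢ[ℝ] E)} {F : V → E}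

theorem norm_Tk_le (hV : VG Γ nb o) (hF : Equi π F) (k : ℕ) (x : V) (a : E) :
    ‖Tk nb F k x a‖ ≤ sg nb F o * ‖a‖ := by
  by_cases h0 : ‖Tk nb F k x a‖ = 0
  · rw [h0]
    exact mul_nonneg (sg_nonneg F o) (norm_nonneg _)
  · have hpos : 0 < ‖Tk nb F k x a‖ := lt_of_le_of_ne (norm_nonneg _) (Ne.symm h0)
    have h1 := (le_abs_self _).trans (mB_abs hV hF k x a (Tk nb F k x a))
    rw [← inner_Tk, real_inner_self_eq_norm_sq, sq] at h1
    exact le_of_mul_le_mul_right h1 hpos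

/-- the trace bound -/
theorem Tk_trB (hV : VG Γ nb o) (hF : Equi π F) (k : ℕ) (x : V) (m : ℕ) (e : Fin m → E) (κ : ℝ)
    (hκ : 0 ≤ κ) (he : ∀ b, ∑ j, ⟪e j, b⟫ ^ 2 ≤ κ * ‖b‖ ^ 2) :
    ∑ j, ⟪Tk nb F k x (e j), e j⟫ ≤ κ * sg nb F o := by
  have h1 : ∀ p, ∑ j, en nb F (e j) (e j) p ≤ κ * sg nb F o := by
    intro p
    rw [← sg_eq hV hF p]
    have h2 : ∑ i, en nb F (e i) (e i) p =
        av nb (fun z => ∑ i, inner ℝ (F z - F p) (e i) * inner ℝ (F z - F p) (e i)) p := by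
      unfold en av
      rw [← Finset.mul_sum, Finset.sum_comm]
    rw [h2]
    have h3 := congrFun (av_smul (nb := nb) κ (fun z => ‖F z - F p‖ ^ 2)) p
    have h4 : κ * sg nb F p = av nb (fun z => κ * ‖F z - F p‖ ^ 2) p := h3.symm
    rw [h4]
    refine av_mono (fun z => ?_) p
    refine le_trans (le_of_eq ?_) (he (F z - F p))
    refine Finset.sum_congr rfl (fun i _ => ?_)
    rw [real_inner_comm (e i) (F z - F p)]
    ring
  simp only [inner_Tk]
  unfold mB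
  rw [← Finset.mul_sum, Finset.sum_comm]
  have h0 : 0 ≤ κ * sg nb F o := mul_nonneg hκ (sg_nonneg F o)
  refine Vale.Agent.P188.SG.weakMix_avg_le k _ _ h0 (fun j => ?_)
  rw [← Wk_sum, ← Wk_const (nb := nb) hV.self j (κ * sg nb F o) x]
  exact Wk_mono j h1 x

/-- `g • o` is near `o`: at least half of the neighbours are common. -/
def Near (nb : V → Finset V) (o : V) (g : Γ) : Prop :=
  ∃ s : Finset V, s ⊆ nb o ∧ s ⊆ nb (g • o) ∧ ((nb o).card : ℝ) ≤ 2 * s.card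

theorem av_eq_sum {f : V → ℝ} {x : V} {N A : ℝ} (hN : ((nb x).card : ℝ) = N) (hN0 : 0 < N)
    (h : av nb f x ≤ A) : ∑ y ∈ nb x, f y ≤ A * N := by
  unfold av at h
  rw [hN, inv_mul_le_iff₀ hN0] at h
  linarith

/-- a neighbour of `o` and `g • o` with two small quantities. -/
theorem near_common (hV : VG Γ nb o) {g : Γ} (hg : Near nb o g) (f h : V → V → ℝ)
    (hf : ∀ x y, y ∈ nb x → 0 ≤ f x y) (hh : ∀ x y, y ∈ nb x → 0 ≤ h x y) {A B : ℝ} (hA : 0 < A)
    (hB : 0 < B) (hfA : ∀ x, av nb (f x) x ≤ A) (hhB : ∀ x, av nb (h x) x ≤ B) :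
    ∃ z, z ∈ nb o ∧ z ∈ nb (g • o) ∧ f o z ≤ 8 * A ∧ f (g • o) z ≤ 8 * A ∧ h o z ≤ 8 * B ∧
      h (g • o) z ≤ 8 * B := by
  classical
  obtain ⟨s, hs1, hs2, hs3⟩ := hg
  have hN : (0 : ℝ) < (nb o).card := card_pos hV o
  have hgo : ((nb (g • o)).card : ℝ) = (nb o).card := by rw [card_nb hV (g • o)]
  refine exists_common (s := nb o) (t := nb (g • o)) hN ?_ (f o) (h o) (f (g • o)) (h (g • o))
    (hf o) (hh o) (hf _) (hh _) hA hB (av_eq_sum rfl hN (hfA o)) (av_eq_sum hgo hN (hfA _))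
    (av_eq_sum rfl hN (hhB o)) (av_eq_sum hgo hN (hhB _))
  refine hs3.trans ?_
  have : s.card ≤ (nb o ∩ nb (g • o)).card := Finset.card_le_card (Finset.subset_inter hs1 hs2)
  have h' : (s.card : ℝ) ≤ (nb o ∩ nb (g • o)).card := by exact_mod_cast this
  linarith

/-- the squared distance bound along a near element -/
theorem near_ST (hV : VG Γ nb o) (hF : Equi π F) {c : ℝ} (hc : 0 < c) (hσ : sg nb F o ≤ c)
    {k : ℕ} (hk : 1 ≤ k) {g : Γ} (hg : Near nb o g) :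
    ‖ST nb F k (g • o) - ST nb F k o‖ ≤ 12 * c * Real.sqrt k := by
  have hk' : (1 : ℝ) ≤ k := by exact_mod_cast hk
  have hA : (0 : ℝ) < 4 * k * c ^ 2 := by positivity
  have hav : ∀ x, av nb (fun y => ‖ST nb F k y - ST nb F k x‖ ^ 2) x ≤ 4 * k * c ^ 2 := by
    intro x
    refine (av_ST hV hF k x).trans ?_
    have h0 := sg_nonneg (nb := nb) F o
    have : (sg nb F o) ^ 2 ≤ c ^ 2 := by gcongr
    nlinarith
  obtain ⟨z, _, _, h1, h2, _, _⟩ := near_common hV hg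
    (fun x y => ‖ST nb F k y - ST nb F k x‖ ^ 2) (fun _ _ => 0) (fun _ _ _ => sq_nonneg _)
    (fun _ _ _ => le_refl _) hA one_pos hav (fun x => by
      rw [congrFun (av_const hV.self 0) x]; exact zero_le_one)
  have hsq : 0 ≤ Real.sqrt k := Real.sqrt_nonneg _
  have hks : Real.sqrt k ^ 2 = k := Real.sq_sqrt (by positivity)
  have h3 : ‖ST nb F k z - ST nb F k o‖ ≤ 6 * c * Real.sqrt k := by
    refine abs_le_of_sq_le_sq' ?_ (by positivity) |>.2
    refine h1.trans ?_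
    rw [mul_pow, mul_pow, hks]
    nlinarith [sq_nonneg c]
  have h4 : ‖ST nb F k z - ST nb F k (g • o)‖ ≤ 6 * c * Real.sqrt k := by
    refine abs_le_of_sq_le_sq' ?_ (by positivity) |>.2
    refine h2.trans ?_
    rw [mul_pow, mul_pow, hks]
    nlinarith [sq_nonneg c]
  have h5 : ST nb F k (g • o) - ST nb F k o =
      (ST nb F k z - ST nb F k o) - (ST nb F k z - ST nb F k (g • o)) := by abel
  rw [h5]
  refine (norm_sub_le _ _).trans ?_
  linarith

/-- the forms at `g • o` and `o` are close -/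
theorem near_mB (hV : VG Γ nb o) (hF : Equi π F) {c : ℝ} (hc : 0 < c) (hσ : sg nb F o ≤ c)
    {k : ℕ} (hk : 1 ≤ k) {g : Γ} (hg : Near nb o g) (a b : E) :
    |mB nb F k (g • o) a b - mB nb F k o a b| ≤ 12 * c / Real.sqrt k * (‖a‖ * ‖b‖) := by
  have hk' : (0 : ℝ) < k := by exact_mod_cast hk
  have hsq : 0 < Real.sqrt k := Real.sqrt_pos.2 hk'
  have hks : Real.sqrt k ^ 2 = k := Real.sq_sqrt (by positivity)
  have h1 := ST_diff (nb := nb) F k (g • o) o a b
  rw [← mul_sub, abs_mul, abs_of_pos hk'] at h1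
  have h2 : (k : ℝ) * |mB nb F k (g • o) a b - mB nb F k o a b| ≤
      12 * c * Real.sqrt k * (‖a‖ * ‖b‖) :=
    h1.trans (mul_le_mul_of_nonneg_right (near_ST hV hF hc hσ hk hg) (by positivity))
  have h3 : 12 * c / Real.sqrt k * (‖a‖ * ‖b‖) = (12 * c * Real.sqrt k * (‖a‖ * ‖b‖)) / k := by
    rw [div_mul_eq_mul_div, div_eq_div_iff hsq.ne' hk'.ne']
    nth_rewrite 1 [← hks]
    ring
  rw [h3, le_div_iff₀ hk']
  linarith

theorem inner_Tk_pi (hV : VG Γ nb o) (hF : Equi π F) (k : ℕ) (g : Γ) (a b : E) :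
    ⟪π g (Tk nb F k o a), b⟫ = mB nb F k (g • o) (π g a) b := by
  rw [mB_act hV hF]
  have h1 : (π g)⁻¹ (π g a) = a := by
    show ((π g)⁻¹ * π g) a = a
    rw [inv_mul_cancel]; rfl
  have h2 : b = π g ((π g)⁻¹ b) := by
    show b = (π g * (π g)⁻¹) b
    rw [mul_inv_cancel]; rfl
  rw [h1, ← inner_Tk]
  conv_lhs => rw [h2]
  rw [LinearIsometryEquiv.inner_map_map]

/-- **(4), near elements** -/
theorem comm_near (hV : VG Γ nb o) (hF : Equi π F) {c : ℝ} (hc : 0 < c) (hσ : sg nb F o ≤ c)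
    {k : ℕ} (hk : 1 ≤ k) {g : Γ} (hg : Near nb o g) (a : E) :
    ‖Tk nb F k o (π g a) - π g (Tk nb F k o a)‖ ≤ 12 * c / Real.sqrt k * ‖a‖ := by
  set w := Tk nb F k o (π g a) - π g (Tk nb F k o a) with hw
  by_cases h0 : ‖w‖ = 0
  · rw [h0]; positivity
  have hpos : 0 < ‖w‖ := lt_of_le_of_ne (norm_nonneg _) (Ne.symm h0)
  have h1 : ⟪w, w⟫ = mB nb F k o (π g a) w - mB nb F k (g • o) (π g a) w := by
    conv_lhs => rw [hw, inner_sub_left, ← hw]
    rw [inner_Tk, inner_Tk_pi hV hF]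
  have h2 := near_mB hV hF hc hσ hk hg (π g a) w
  rw [LinearIsometryEquiv.norm_map] at h2
  have h3 : ‖w‖ * ‖w‖ ≤ (12 * c / Real.sqrt k * ‖a‖) * ‖w‖ := by
    have h4 : ‖w‖ * ‖w‖ = ⟪w, w⟫ := by rw [real_inner_self_eq_norm_sq, sq]
    rw [h4, h1]
    have h5 := (abs_le.1 h2).1
    linarith
  exact le_of_mul_le_mul_right h3 hpos

end act

section prod

variable {Γ : Type u} [Group Γ] (π : Γ →* (E ≃ₗᵢ[ℝ] E))

/-- (4) is stable under products -/
theorem comm_mul (T : E →ₗ[ℝ] E) {g h : Γ} {D D' : ℝ}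
    (hg : ∀ a, ‖T (π g a) - π g (T a)‖ ≤ D * ‖a‖) (hh : ∀ a, ‖T (π h a) - π h (T a)‖ ≤ D' * ‖a‖)
    (a : E) : ‖T (π (g * h) a) - π (g * h) (T a)‖ ≤ (D + D') * ‖a‖ := by
  have e1 : ∀ x, π (g * h) x = π g (π h x) := fun x => by rw [map_mul]; rfl
  have e2 : T (π (g * h) a) - π (g * h) (T a) =
      (T (π g (π h a)) - π g (T (π h a))) + π g (T (π h a) - π h (T a)) := by
    rw [e1, e1, map_sub]
    abel
  rw [e2]
  refine (norm_add_le _ _).trans ?_
  rw [LinearIsometryEquiv.norm_map]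
  have h1 := hg (π h a)
  rw [LinearIsometryEquiv.norm_map] at h1
  have h2 := hh a
  linarith

theorem comm_one (T : E →ₗ[ℝ] E) (a : E) : ‖T (π 1 a) - π 1 (T a)‖ ≤ 0 * ‖a‖ := by
  rw [map_one]
  simp

end prod

end Vale.Agent.P151.R3.O
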