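import Vale.Agent.P151.H36.Vgk
import Vale.Agent.P151.R3.H430.Oz5

/-!
P151, route R3, block O: the operators of one window, from the cocycle of block A.
-/

universe u

open Finset
open scoped RealInnerProductSpace

namespace Vale.Agent.P151.R3.O

open Vale.Agent.P151.GB Vale.Agent.P151.H982 Vale.Agent.P151.H36

noncomputable section

variable {Γ : Type u} [Group Γ] {D : Len Γ} {hD : D.Proper} {J u A : ℕ} {b : Γ → L2K D}

/-- the operators of the window -/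
def TW (hD : D.Proper) (u : ℕ) (b : Γ → L2K D) (k : ℕ) : L2K D →ₗ[ℝ] L2K D :=
  Tk (nbK hD u) (FK b) k (oK D)

/-- good times -/
def goodW (hD : D.Proper) (u : ℕ) (k : ℕ) : Prop :=
  768 ≤ k ∧ (k : ℝ) * (Hn (nbK hD u) (k + 1) (oK D) - Hn (nbK hD u) k (oK D)) ≤ 6

theorem tw_symm (k : ℕ) (x y : L2K D) : ⟪TW hD u b k x, y⟫ = ⟪x, TW hD u b k y⟫ :=
  Tk_symm _ k _ x y

theorem tw_nonneg (k : ℕ) (x : L2K D) : 0 ≤ ⟪TW hD u b k x, x⟫ := Tk_nonneg _ k _ x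

theorem tw_norm (h : WCoc hD J u A b) (hsp : Split D) (k : ℕ) (x : L2K D) :
    ‖TW hD u b k x‖ ≤ 12800 * ‖x‖ :=
  (norm_Tk_le (vgK hD hsp h.u_pos) h.equi k _ x).trans
    (mul_le_mul_of_nonneg_right h.sg_le (norm_nonneg _))

theorem tw_tr (h : WCoc hD J u A b) (hsp : Split D) (k : ℕ) (m : ℕ) (e : Fin m → L2K D) (κ : ℝ)
    (hκ : 0 ≤ κ) (he : ∀ b, ∑ j, ⟪e j, b⟫ ^ 2 ≤ κ * ‖b‖ ^ 2) :
    ∑ j, ⟪TW hD u b k (e j), e j⟫ ≤ κ * 12800 :=
  (Tk_trB (vgK hD hsp h.u_pos) h.equi k _ m e κ hκ he).trans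
    (mul_le_mul_of_nonneg_left h.sg_le hκ)

theorem nearK (h : WCoc hD J u A b) {g : Γ} (hg : D.ℓ g ≤ 1) : Near (nbK hD u) (oK D) g := by
  classical
  refine ⟨nbK hD u (oK D) ∩ nbK hD u (g • oK D), Finset.inter_subset_left,
    Finset.inter_subset_right, ?_⟩
  have h1 := overlap_nbK hD h.ratio g hg
  have h2 : (nbK hD u (oK D)).card ≤ 2 * (nbK hD u (oK D) ∩ nbK hD u (g • oK D)).card := by omega
  exact_mod_cast h2

theorem driftK (h : WCoc hD J u A b) (hsp : Split D) :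
    ‖vav (nbK hD u) (FK b) (oK D) - FK b (oK D)‖ ≤ 2048 / A := by
  rw [vav_sub_self (vgK hD hsp h.u_pos).self]
  exact h.drift'

theorem tw_comm (h : WCoc hD J u A b) (hsp : Split D) {k : ℕ} (hk : 1 ≤ k) {g : Γ}
    (hg : D.ℓ g ≤ 1) (x : L2K D) :
    ‖TW hD u b k (lamK D g x) - lamK D g (TW hD u b k x)‖ ≤ 12 * 12800 / Real.sqrt k * ‖x‖ :=
  comm_near (vgK hD hsp h.u_pos) h.equi (by norm_num) h.sg_le hk (nearK h hg) x

theorem tw_oz (h : WCoc hD J u A b) (hsp : Split D) {N : ℕ} (hN : 2048 ^ 2 * N ^ 3 ≤ A ^ 2)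
    {k : ℕ} (hkN : k ≤ N) (hgood : goodW hD u k) {g : Γ} (hg : D.ℓ g ≤ 1) (x : L2K D) :
    ⟪b g, x⟫ ^ 2 ≤ 2000000000 * (⟪TW hD u b k x, x⟫ + ‖x‖ ^ 2 / Real.sqrt k) := by
  have h1 := ozawa_near (vgK hD hsp h.u_pos) h.equi (c := 12800) (by norm_num) h.sg_le
    (driftK h hsp) hgood.1 hgood.2 (nearK h hg) x
  rw [h.FK_smul_oK, h.FK_oK, sub_zero] at h1
  have hk1 : (1 : ℝ) ≤ k := by
    have := hgood.1
    exact_mod_cast (by omega : 1 ≤ k)
  have hA : (0 : ℝ) < A := by exact_mod_cast h.A_pos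
  have hsq : 0 < Real.sqrt k := Real.sqrt_pos.2 (by linarith)
  have hks : Real.sqrt k ^ 2 = k := Real.sq_sqrt (by linarith)
  have hsk : Real.sqrt k ≤ k := by
    rw [Real.sqrt_le_left (by linarith)]
    nlinarith
  have h2 : (k : ℝ) ^ 2 * (2048 / A) ^ 2 ≤ 1 / Real.sqrt k := by
    rw [le_div_iff₀ hsq]
    have h3 : (2048 : ℝ) ^ 2 * k ^ 3 ≤ A ^ 2 := by
      have h4 : 2048 ^ 2 * k ^ 3 ≤ A ^ 2 :=
        (Nat.mul_le_mul_left _ (Nat.pow_le_pow_left hkN 3)).trans hN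
      exact_mod_cast h4
    have h5 : (k : ℝ) ^ 2 * (2048 / A) ^ 2 * Real.sqrt k ≤ (k : ℝ) ^ 2 * (2048 / A) ^ 2 * k :=
      mul_le_mul_of_nonneg_left hsk (by positivity)
    refine h5.trans ?_
    have h6 : (k : ℝ) ^ 2 * (2048 / A) ^ 2 * k = (2048 ^ 2 * k ^ 3) / A ^ 2 := by
      rw [div_pow]
      ring
    rw [h6, div_le_one (by positivity)]
    exact h3
  have hm : 0 ≤ ⟪TW hD u b k x, x⟫ := tw_nonneg k x
  have hq : 0 ≤ ‖x‖ ^ 2 / Real.sqrt k := by positivity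
  have h7 : (12800 / Real.sqrt k + (k : ℝ) ^ 2 * (2048 / A) ^ 2) * ‖x‖ ^ 2 ≤
      12801 * (‖x‖ ^ 2 / Real.sqrt k) := by
    have h8 : (12800 / Real.sqrt k + (k : ℝ) ^ 2 * (2048 / A) ^ 2) * ‖x‖ ^ 2 ≤
        (12800 / Real.sqrt k + 1 / Real.sqrt k) * ‖x‖ ^ 2 :=
      mul_le_mul_of_nonneg_right (by linarith) (sq_nonneg _)
    refine h8.trans (le_of_eq ?_)
    ring
  change ⟪b g, x⟫ ^ 2 ≤ 150000 * (⟪TW hD u b k x, x⟫ + _) at h1
  refine h1.trans ?_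
  linarith

theorem tw_goods (h : WCoc hD J u A b) (hsp : Split D) {C M : ℕ} (hC : 1 ≤ C)
    (hgrow : ∀ m, 1 ≤ m → m ≤ M → (bl hD m).card ≤ C * m ^ 2 * (bl hD 1).card) {N : ℕ}
    (hNM : N * J ≤ M) {k1 : ℕ} (hk1 : 768 * (C * J ^ 2) ≤ k1) (hk1N : k1 ^ 2 ≤ N) :
    ∃ k, k1 ≤ k ∧ k < k1 ^ 2 ∧ goodW hD u k := by
  have hu1 := h.u_pos
  have huJ := h.u_le
  have hJ : 1 ≤ J := hu1.trans huJ
  have hCJ : 1 ≤ C * J ^ 2 := Nat.one_le_iff_ne_zero.2 (by positivity)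
  have hk768 : 768 ≤ k1 := by nlinarith
  have hCJr : (1 : ℝ) ≤ ((C * J ^ 2 : ℕ) : ℝ) := by exact_mod_cast hCJ
  have hV := vgK hD hsp h.u_pos
  have hvol : ((rb (nbK hD u) (k1 ^ 2) (oK D)).card : ℝ) ≤
      ((C * J ^ 2 : ℕ) : ℝ) * ((k1 ^ 2 : ℕ) : ℝ) ^ 2 * (nbK hD u (oK D)).card := by
    rw [rbK_oK hD hsp, nbK_oK]
    have h1 : 1 ≤ k1 ^ 2 * u := Nat.one_le_iff_ne_zero.2 (by
      have : 0 < k1 := by omega
      positivity)
    have h2 : k1 ^ 2 * u ≤ M := (Nat.mul_le_mul hk1N huJ).trans hNM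
    have h3 := hgrow _ h1 h2
    have h4 : (bl hD 1).card ≤ (bl hD u).card := Finset.card_le_card (bl_mono hD hu1)
    have h5 : C * (k1 ^ 2 * u) ^ 2 * (bl hD 1).card ≤
        C * J ^ 2 * (k1 ^ 2) ^ 2 * (bl hD u).card := by
      refine Nat.mul_le_mul ?_ h4
      have h6 : (k1 ^ 2 * u) ^ 2 ≤ J ^ 2 * (k1 ^ 2) ^ 2 := by
        rw [mul_pow, mul_comm]
        exact Nat.mul_le_mul_right _ (Nat.pow_le_pow_left huJ 2)
      calc C * (k1 ^ 2 * u) ^ 2 ≤ C * (J ^ 2 * (k1 ^ 2) ^ 2) := Nat.mul_le_mul_left _ h6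
        _ = C * J ^ 2 * (k1 ^ 2) ^ 2 := by ring
    exact_mod_cast h3.trans h5
  have hlog : Real.log ((C * J ^ 2 : ℕ) : ℝ) + 6 ≤ 2 * Real.log k1 := by
    have hk1r : (768 : ℝ) * ((C * J ^ 2 : ℕ) : ℝ) ≤ k1 := by exact_mod_cast hk1
    have h1 : Real.log (768 * ((C * J ^ 2 : ℕ) : ℝ)) ≤ Real.log k1 :=
      Real.log_le_log (by positivity) hk1r
    rw [Real.log_mul (by norm_num) (by positivity)] at h1
    have h2 : (3 : ℝ) ≤ Real.log 768 := by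
      rw [Real.le_log_iff_exp_le (by norm_num)]
      have h3 : Real.exp 3 = Real.exp 1 ^ 3 := by
        rw [← Real.exp_nat_mul]
        norm_num
      rw [h3]
      have h4 := Real.exp_one_lt_d9.le
      have h5 : Real.exp 1 ^ 3 ≤ 3 ^ 3 := by
        refine pow_le_pow_left₀ (Real.exp_pos 1).le ?_ 3
        linarith
      linarith
    have h6 : 0 ≤ Real.log ((C * J ^ 2 : ℕ) : ℝ) := Real.log_nonneg hCJr
    linarith
  obtain ⟨k, hk, hk', hk''⟩ := exists_good_time hV ((C * J ^ 2 : ℕ) : ℝ) (by linarith) k1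
    (by omega) hvol hlog
  exact ⟨k, hk, hk', by omega, hk''⟩

theorem tw_sel (h : WCoc hD J u A b) (hsp : Split D) {N : ℕ}
    (hN : 42598400 * J * N ^ 2 ≤ A) {k : ℕ} (hk : 1 ≤ k) {lm : ℝ} (hlm : 0 < lm) (hkN : k ≤ N)
    (hlN : 1 ≤ lm * N) {x : L2K D} (hx : ‖x‖ ≤ 2) (hT : lm ≤ ⟪TW hD u b k x, x⟫) :
    ∃ g, D.ℓ g ≤ J * k ∧ 1 / (5200 * J) * lm / k ≤ ⟪b g, x⟫ := by
  have hJ : 1 ≤ J := h.u_pos.trans h.u_le
  have hJr : (1 : ℝ) ≤ J := by exact_mod_cast hJ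
  have hkr : (1 : ℝ) ≤ k := by exact_mod_cast hk
  have hkNr : (k : ℝ) ≤ N := by exact_mod_cast hkN
  have hA : (0 : ℝ) < A := by exact_mod_cast h.A_pos
  have hN0 : (0 : ℝ) < N := by linarith
  have hR : (0 : ℝ) < 650 * (k * J) := by positivity
  have hRb : ∀ y ∈ rb (nbK hD u) k (oK D), ‖FK b y - FK b (oK D)‖ ≤ 650 * (k * J) := by
    intro y hy
    rw [mem_rbK hD hsp] at hy
    refine (h.norm_sub_le _ _).trans ?_
    have h1 : dK D (oK D) y ≤ k * J := hy.trans (Nat.mul_le_mul_left _ h.u_le)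
    have h2 : (dK D (oK D) y : ℝ) ≤ k * J := by exact_mod_cast h1
    linarith
  have hsmall : 32 * (650 * (k * J)) * (2048 / A) ≤ lm := by
    have h1 : 32 * (650 * ((k : ℝ) * J)) * (2048 / A) = (42598400 * J * k) / A := by ring
    rw [h1, div_le_iff₀ hA]
    have h2 : (42598400 : ℝ) * J * N ^ 2 ≤ A := by exact_mod_cast hN
    have h3 : (42598400 : ℝ) * J * k ≤ 42598400 * J * N :=
      mul_le_mul_of_nonneg_left hkNr (by positivity)
    have h4 : (42598400 : ℝ) * J * N ≤ lm * (42598400 * J * N ^ 2) := by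
      have : (42598400 : ℝ) * J * N * 1 ≤ 42598400 * J * N * (lm * N) :=
        mul_le_mul_of_nonneg_left hlN (by positivity)
      linarith
    have h5 : lm * (42598400 * J * N ^ 2) ≤ lm * A := mul_le_mul_of_nonneg_left h2 hlm.le
    linarith
  obtain ⟨y, hy, hle⟩ := select (vgK hD hsp h.u_pos) h.equi hk (driftK h hsp) hR hRb hlm hx hT
    hsmall
  have hlmle : lm ≤ 51200 := by
    refine hT.trans ((real_inner_le_norm _ _).trans ?_)
    have h1 := tw_norm h hsp k x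
    calc ‖TW hD u b k x‖ * ‖x‖ ≤ (12800 * ‖x‖) * ‖x‖ :=
          mul_le_mul_of_nonneg_right h1 (norm_nonneg _)
      _ = 12800 * ‖x‖ ^ 2 := by ring
      _ ≤ 12800 * 2 ^ 2 := by
          refine mul_le_mul_of_nonneg_left ?_ (by norm_num)
          exact pow_le_pow_left₀ (norm_nonneg _) hx 2
      _ = 51200 := by norm_num
  refine ⟨y.out, ?_, ?_⟩
  · rw [mem_rbK hD hsp, dK_oK] at hy
    have h1 : D.ℓ y.out = nr D y := rfl
    rw [h1, mul_comm J k]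
    exact hy.trans (Nat.mul_le_mul_left _ h.u_le)
  · rw [h.FK_oK, sub_zero] at hle
    have h1 : lm * k / (8 * (650 * (k * J))) = 1 / (5200 * J) * lm := by
      field_simp
      ring
    have h2 : 1 / (5200 * J) * lm / k ≤ 1 / (5200 * J) * lm := div_le_self (by positivity) hkr
    have h3 : 1 / (5200 * (J : ℝ)) * lm ≤ 650 * (k * J) := by
      have h4 : 1 / (5200 * (J : ℝ)) ≤ 1 / 5200 := by
        refine one_div_le_one_div_of_le (by norm_num) ?_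
        linarith
      have h5 : 1 / (5200 * (J : ℝ)) * lm ≤ 1 / 5200 * 51200 :=
        mul_le_mul h4 hlmle hlm.le (by norm_num)
      have h6 : (1 : ℝ) ≤ k * J := by nlinarith
      linarith
    rw [h1, min_eq_left h3] at hle
    exact h2.trans hle

theorem tw_ne (h : WCoc hD J u A b) : ∃ g, D.ℓ g ≤ J ∧ 1 / (5200 * J) ≤ ‖b g‖ := by
  have hJ : 1 ≤ J := h.u_pos.trans h.u_le
  have hJr : (1 : ℝ) ≤ J := by exact_mod_cast hJ
  by_contra hcon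
  push Not at hcon
  have h1 := h.sg_ge
  have h2 : sg (nbK hD u) (FK b) (oK D) ≤ (1 / (5200 * J)) ^ 2 := by
    unfold sg H982.av
    have hc : (0 : ℝ) < (nbK hD u (oK D)).card := by
      rw [card_nbK]
      exact_mod_cast bl_pos hD u
    rw [inv_mul_le_iff₀ hc]
    have h3 : ∀ z ∈ nbK hD u (oK D), ‖FK b z - FK b (oK D)‖ ^ 2 ≤ (1 / (5200 * (J : ℝ))) ^ 2 := by
      intro z hz
      rw [h.FK_oK, sub_zero]
      refine pow_le_pow_left₀ (norm_nonneg _) (hcon z.out ?_).le 2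
      rw [mem_nbK, dK_oK] at hz
      exact hz.trans h.u_le
    refine (Finset.sum_le_sum h3).trans (le_of_eq ?_)
    rw [Finset.sum_const, nsmul_eq_mul]
  have h4 : (1 / (5200 * (J : ℝ))) ^ 2 < 1 / (16 * (1 + 2 * (J : ℝ)) ^ 2) := by
    rw [div_pow, one_pow]
    refine one_div_lt_one_div_of_lt (by positivity) ?_
    nlinarith
  linarith

end

end Vale.Agent.P151.R3.O
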