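import Vale.Agent.P151.R3.H430.Oz6
import Vale.Agent.P151.R3.H362.Lvl

/-!
P151, route R3, block O: the level data of one window.
-/

universe u

open Finset
open scoped RealInnerProductSpace

namespace Vale.Agent.P151.R3.O

open Vale.Agent.P151.GB Vale.Agent.P151.H982 Vale.Agent.P151.H36 Vale.Agent.P151.R3.H362

theorem lvl_of_wcoc' {Γ : Type u} [Group Γ] {D : Len Γ} {hD : D.Proper} {J u A : ℕ}
    {b : Γ → L2K D} (h : WCoc hD J u A b) (hsp : Split D) {C M : ℕ} (hC : 1 ≤ C)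
    (hgrow : ∀ m, 1 ≤ m → m ≤ M → (bl hD m).card ≤ C * m ^ 2 * (bl hD 1).card) {N : ℕ}
    (hNM : N * J ≤ M) (hN1 : 2048 ^ 2 * N ^ 3 ≤ A ^ 2) (hN2 : 42598400 * J * N ^ 2 ≤ A) :
    Lvl D (lamK D) b (TW hD u b) (goodW hD u) 650 2000000000 (1 / (5200 * J))
      (768 * (C * J ^ 2)) N := by
  have hJ : 1 ≤ J := h.u_pos.trans h.u_le
  have hJ' : J ≤ 768 * (C * J ^ 2) := by nlinarith [Nat.mul_le_mul hC (le_refl (J ^ 2))]
  refine ⟨h.coc, fun g hg => h.ker g hg, ?_, tw_symm, tw_nonneg, ?_, ?_, ?_, ?_, ?_, ?_, ?_⟩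
  · intro g
    refine (h.lip g).trans ?_
    linarith
  · intro k x
    refine (tw_norm h hsp k x).trans ?_
    exact mul_le_mul_of_nonneg_right (by norm_num) (norm_nonneg _)
  · intro k m e κ hκ he
    refine (tw_tr h hsp k m e κ hκ he).trans ?_
    exact mul_le_mul_of_nonneg_left (by norm_num) hκ
  · intro k hk g hg x
    refine (tw_comm h hsp hk hg x).trans ?_
    refine mul_le_mul_of_nonneg_right ?_ (norm_nonneg _)
    exact div_le_div_of_nonneg_right (by norm_num) (Real.sqrt_nonneg _)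
  · intro k _ hkN hgood g hg x
    exact tw_oz h hsp hN1 hkN hgood hg x
  · intro k1 hk1 hk1N
    exact tw_goods h hsp hC hgrow hNM hk1 hk1N
  · intro k hk lm hlm hkN hlN x hx hT
    obtain ⟨g, hg1, hg2⟩ := tw_sel h hsp hN2 hk hlm hkN hlN hx hT
    exact ⟨g, hg1.trans (Nat.mul_le_mul_right _ hJ'), hg2⟩
  · obtain ⟨g, hg1, hg2⟩ := tw_ne h
    exact ⟨g, hg1.trans hJ', hg2⟩

/-- **Block O**, for one window. -/
theorem lvl_of_wcoc (C J : ℕ) : ∃ (B c a : ℝ) (J' : ℕ), 0 ≤ B ∧ 0 ≤ c ∧ 0 < a ∧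
    ∀ N : ℕ, ∃ M A0 : ℕ, ∀ (Γ : Type u) [Group Γ] (D : Len Γ) (hD : D.Proper) (u A : ℕ)
      (b : Γ → L2K D), WCoc hD J u A b → Split D →
      (∀ m, 1 ≤ m → m ≤ M → (bl hD m).card ≤ C * m ^ 2 * (bl hD 1).card) → A0 ≤ A →
      ∃ (T : ℕ → L2K D →ₗ[ℝ] L2K D) (good : ℕ → Prop),
        Lvl D (lamK D) b T good B c a J' N := by
  refine ⟨650, 2000000000, if J = 0 then 1 else 1 / (5200 * J), 768 * ((C + 1) * J ^ 2),
    by norm_num, by norm_num, ?_, fun N => ⟨N * J, 2048 * N ^ 2 + 42598400 * J * N ^ 2, ?_⟩⟩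
  · split_ifs with h
    · norm_num
    · have : 0 < J := Nat.pos_of_ne_zero h
      positivity
  · intro Γ _ D hD u A b h hsp hgrow hA
    have hJ : 1 ≤ J := h.u_pos.trans h.u_le
    rw [if_neg (by omega)]
    refine ⟨_, _, lvl_of_wcoc' h hsp (C := C + 1) (by omega) (fun m h1 h2 => ?_) le_rfl ?_ ?_⟩
    · refine (hgrow m h1 h2).trans ?_
      gcongr
      omega
    · have h1 : 2048 * N ^ 2 ≤ A := by omega
      have h2 : (2048 * N ^ 2) ^ 2 ≤ A ^ 2 := Nat.pow_le_pow_left h1 2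
      refine le_trans ?_ h2
      rcases Nat.eq_zero_or_pos N with h3 | h3
      · subst h3; norm_num
      · rw [mul_pow, ← pow_mul]
        exact Nat.mul_le_mul_left _ (Nat.pow_le_pow_right h3 (by norm_num))
    · omega

end Vale.Agent.P151.R3.O
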