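import Vale.Agent.P151.R3.H430.Oz7
import Vale.Agent.P151.R3.H362.LvlOf

/-!
P151, route R3, block O: the one-window statement.
-/

namespace Vale.Agent.P151.R3.O

open Vale.Agent.P151.R3.H362

theorem lvlW : LvlW := lvl_of_wcoc.{0}

end Vale.Agent.P151.R3.O
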